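import Claimed.Agent.R257.Proj.Core

/-!
# ROW 257, package FR3, unit PROJ, file 8: NUMERICS AND THE EXIT `pj_main`      (architect helper121)
-/

set_option autoImplicit false

namespace Claimed.Agent.R257

open Finset Matrix Claimed.Agent.RW
open scoped Classical

/-- polynomially bounded nonnegative functions on `[1, ∞)` -/
def pjPB (f : ℝ → ℝ) : Prop := ∃ C : ℕ, ∀ t : ℝ, 1 ≤ t → 0 ≤ f t ∧ f t ≤ C * t ^ C

theorem pj_pb_of_le {f : ℝ → ℝ} (a b : ℕ) (h : ∀ t : ℝ, 1 ≤ t → 0 ≤ f t ∧ f t ≤ a * t ^ b) : pjPB f := by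
  refine ⟨a + b, fun t ht => ⟨(h t ht).1, (h t ht).2.trans ?_⟩⟩
  have h1 : t ^ b ≤ t ^ (a + b) := pow_le_pow_right₀ ht (by omega)
  have h2 : (a : ℝ) ≤ ((a + b : ℕ) : ℝ) := by exact_mod_cast Nat.le_add_right a b
  have h3 : 0 ≤ t ^ b := by positivity
  exact mul_le_mul h2 h1 h3 (by positivity)

theorem pj_pb_const (c : ℝ) (hc : 0 ≤ c) : pjPB fun _ => c :=
  pj_pb_of_le ⌈c⌉₊ 0 fun t _ => ⟨hc, by simpa using Nat.le_ceil c⟩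

theorem pj_pb_id : pjPB fun t => t := pj_pb_of_le 1 1 fun t ht => ⟨by linarith, by simp⟩

theorem pj_pb_add {f g : ℝ → ℝ} (hf : pjPB f) (hg : pjPB g) : pjPB fun t => f t + g t := by
  obtain ⟨C, hC⟩ := hf
  obtain ⟨C', hC'⟩ := hg
  refine pj_pb_of_le (C + C') (C + C') fun t ht => ⟨add_nonneg (hC t ht).1 (hC' t ht).1, ?_⟩
  have h1 : t ^ C ≤ t ^ (C + C') := pow_le_pow_right₀ ht (by omega)
  have h2 : t ^ C' ≤ t ^ (C + C') := pow_le_pow_right₀ ht (by omega)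
  have h3 := mul_le_mul_of_nonneg_left h1 (Nat.cast_nonneg (α := ℝ) C)
  have h4 := mul_le_mul_of_nonneg_left h2 (Nat.cast_nonneg (α := ℝ) C')
  push_cast
  linarith [(hC t ht).2, (hC' t ht).2]

theorem pj_pb_mul {f g : ℝ → ℝ} (hf : pjPB f) (hg : pjPB g) : pjPB fun t => f t * g t := by
  obtain ⟨C, hC⟩ := hf
  obtain ⟨C', hC'⟩ := hg
  refine pj_pb_of_le (C * C') (C + C') fun t ht => ⟨mul_nonneg (hC t ht).1 (hC' t ht).1, ?_⟩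
  have h0 : 0 ≤ t := by linarith
  calc f t * g t ≤ (C * t ^ C) * (C' * t ^ C') :=
        mul_le_mul (hC t ht).2 (hC' t ht).2 (hC' t ht).1 (by positivity)
    _ = ((C * C' : ℕ) : ℝ) * t ^ (C + C') := by push_cast; ring

theorem pj_pb_pow {f : ℝ → ℝ} (hf : pjPB f) (j : ℕ) : pjPB fun t => f t ^ j := by
  induction j with
  | zero => simpa using pj_pb_const 1 zero_le_one
  | succ j ih =>
    simp only [pow_succ]
    exact pj_pb_mul ih hf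

theorem pj_pb_rpow {f : ℝ → ℝ} (hf : pjPB f) (s : ℝ) (hs : 0 ≤ s) : pjPB fun t => f t ^ s := by
  obtain ⟨C, hC⟩ := hf
  refine pj_pb_of_le ⌈(C : ℝ) ^ s⌉₊ (C * ⌈s⌉₊) fun t ht => ⟨Real.rpow_nonneg (hC t ht).1 s, ?_⟩
  have h0 : 0 ≤ t := by linarith
  have h1 : (t ^ C) ^ s ≤ t ^ (C * ⌈s⌉₊) := by
    rw [← Real.rpow_natCast t C, ← Real.rpow_mul h0, ← Real.rpow_natCast t (C * ⌈s⌉₊)]
    refine Real.rpow_le_rpow_of_exponent_le ht ?_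
    push_cast
    exact mul_le_mul_of_nonneg_left (Nat.le_ceil s) (Nat.cast_nonneg C)
  calc f t ^ s ≤ ((C : ℝ) * t ^ C) ^ s := Real.rpow_le_rpow (hC t ht).1 (hC t ht).2 hs
    _ = (C : ℝ) ^ s * (t ^ C) ^ s := Real.mul_rpow (Nat.cast_nonneg C) (by positivity)
    _ ≤ (⌈(C : ℝ) ^ s⌉₊ : ℝ) * t ^ (C * ⌈s⌉₊) :=
        mul_le_mul (Nat.le_ceil _) h1 (Real.rpow_nonneg (by positivity) s) (Nat.cast_nonneg _)

theorem pj_pb_W (n : ℕ) (A d0 γ : ℝ) (hA : 1 ≤ A) (hd0 : 0 ≤ d0) (hγ : 0 ≤ γ) {K L : ℝ → ℝ} (hK : pjPB K) (hL : pjPB L) :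
    pjPB fun t => pjW n (K t) A d0 γ (L t) := by
  have hA0 : 0 ≤ A := by linarith
  have c := fun (x : ℝ) (hx : 0 ≤ x) => pj_pb_const x hx
  have hE : pjPB fun _ : ℝ => pjE n A d0 := c _ (by unfold pjE; positivity)
  have hKE : pjPB fun t => K t * pjE n A d0 := pj_pb_mul hK hE
  have h2L : pjPB fun t => K t * (2 * L t + 3) :=
    pj_pb_mul hK (pj_pb_add (pj_pb_mul (c 2 (by norm_num)) hL) (c 3 (by norm_num)))
  have hK2 : pjPB fun t => pjK2 n (K t) A d0 (L t) := by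
    unfold pjK2
    exact pj_pb_mul (pj_pb_mul (pj_pb_mul (c 8 (by norm_num)) (c _ (Nat.cast_nonneg _))) (pj_pb_pow hK _))
      (pj_pb_mul (pj_pb_pow h2L _) hKE)
  have hKH : pjPB fun t => pjKH n (K t) A d0 (L t) := by
    unfold pjKH
    exact pj_pb_mul (pj_pb_pow h2L _) (pj_pb_pow hK2 _)
  unfold pjW
  refine pj_pb_add (pj_pb_add (pj_pb_add (pj_pb_add ?_ ?_) ?_) hKH) ?_
  · exact pj_pb_mul hK (pj_pb_rpow (pj_pb_mul hL (c _ (by positivity))) γ hγ)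
  · exact pj_pb_mul (pj_pb_pow hK 2)
      (pj_pb_rpow (pj_pb_mul (pj_pb_mul (c 3 (by norm_num)) hL) (c A hA0)) _ (by positivity))
  · exact pj_pb_mul (pj_pb_pow hKH n) hKE
  · exact pj_pb_mul (c 8 (by norm_num)) (pj_pb_pow hK _)

/-- LEAF `L-PJ-N1` **polynomial growth of the constants**: with `K = t`, `r0 = (t^m)⁻¹` everything is `≤ C t^C`.
PLAN.  Small calculus: `PB f := ∃ C : ℕ, ∀ t, 1 ≤ t → 0 ≤ f t ∧ f t ≤ C * t ^ C`; closed under constants `≥ 0`, `id`, `+`, `*`, `^ (j : ℕ)`, and `^ (s : ℝ)`, `s ≥ 0` (`(C t^C)^s ≤ ⌈C^s⌉₊ t^(C ⌈s⌉₊)`: `Real.mul_rpow`,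
`Real.rpow_le_rpow_of_exponent_le`, `Real.rpow_natCast`).   `pjL A (t^m)⁻¹ j = (2 A² t^m)^(2^j - 1)`.   Unfold `pjW, pjKH, pjK2, pjE, pjL`. -/
theorem pj_poly (n m : ℕ) (A d0 γ : ℝ) (hA : 1 ≤ A) (hd0 : 0 ≤ d0) (hγ : 0 ≤ γ) :
    ∃ C : ℕ, ∀ t : ℝ, 1 ≤ t →
      18 * pjW n t A d0 γ (pjL A (t ^ m)⁻¹ (n + 3)) ^ 3 * (2 * (pjL A (t ^ m)⁻¹ (n + 3) * A) + 2) ^ 2 ≤ C * t ^ C := by
  have hA0 : 0 ≤ A := by linarith
  have c := fun (x : ℝ) (hx : 0 ≤ x) => pj_pb_const x hx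
  have hL : pjPB fun t => pjL A (t ^ m)⁻¹ (n + 3) := by
    unfold pjL
    simp only [div_inv_eq_mul]
    exact pj_pb_pow (pj_pb_mul (c _ (by positivity)) (pj_pb_pow pj_pb_id m)) _
  have hW := pj_pb_W n A d0 γ hA hd0 hγ pj_pb_id hL
  obtain ⟨C, hC⟩ := pj_pb_mul (pj_pb_mul (c 18 (by norm_num)) (pj_pb_pow hW 3))
    (pj_pb_pow (pj_pb_add (pj_pb_mul (c 2 (by norm_num)) (pj_pb_mul hL (c A hA0))) (c 2 (by norm_num))) 2)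
  exact ⟨C, fun t ht => (hC t ht).2⟩

/-- `ρ^(-e)` is large for small `ρ` -/
theorem pj_num_big (c e : ℝ) (he : 0 < e) : ∃ ρ' : ℝ, 0 < ρ' ∧ ∀ ρ : ℝ, 0 < ρ → ρ < ρ' → c ≤ ρ ^ (-e) := by
  have hm : 0 < max c 1 := lt_of_lt_of_le one_pos (le_max_right _ _)
  refine ⟨(max c 1) ^ (-(1 / e)), Real.rpow_pos_of_pos hm _, fun ρ h0 h1 => ?_⟩
  have h2 : ((max c 1) ^ (-(1 / e))) ^ (-e) ≤ ρ ^ (-e) := Real.rpow_le_rpow_of_nonpos h0 h1.le (by linarith)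
  rw [← Real.rpow_mul hm.le] at h2
  have e1 : -(1 / e) * -e = 1 := by field_simp
  rw [e1, Real.rpow_one] at h2
  exact (le_max_left _ _).trans h2

/-- LEAF `L-PJ-N2` **choice of the parameters.**
PLAN.  `m = ⌈(n+5)/γ⌉₊`, `C` from `pj_poly n m`, `η = min (χ/(2(C+1))) (1/(m+1))`, `t = ρ^(-η) ≥ 1`, `r0 = (t^m)⁻¹ = ρ^(η m)` (`Real.rpow_natCast`, `Real.rpow_mul`, `Real.rpow_neg`): `ρ ≤ r0 ≤ 1` because `η m ≤ 1`.
`(n+3) t r0^γ = (n+3) t^(1 - mγ) ≤ (n+3) t^(-(n+4))` and `t⁻¹^(n+3)/2 = t^(-(n+3))/2`: enough `2(n+3) ≤ t`, i.e. `ρ ≤ (2(n+3))^(-1/η)`.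
`C t^C = C ρ^(-ηC) ≤ C ρ^(-χ/2) < ρ^(-χ)` as soon as `C + 1 ≤ ρ^(-χ/2)`, i.e. `ρ ≤ (C+1)^(-2/χ)`.   `ρ₂` = the minimum of these two bounds and `1`. -/
theorem pj_num (n : ℕ) (A d0 γ χ : ℝ) (hA : 1 ≤ A) (hd0 : 0 ≤ d0) (hγ : 0 < γ) (hχ : 0 < χ) :
    ∃ η : ℝ, 0 < η ∧ ∃ ρ₂ : ℝ, 0 < ρ₂ ∧ ρ₂ ≤ 1 ∧ ∀ ρ : ℝ, 0 < ρ → ρ < ρ₂ → ∃ r0 : ℝ, ρ ≤ r0 ∧ r0 ≤ 1 ∧
      ((n + 3 : ℕ) : ℝ) * (ρ ^ (-η) * r0 ^ γ) ≤ (ρ ^ (-η))⁻¹ ^ (n + 3) / 2 ∧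
      18 * pjW n (ρ ^ (-η)) A d0 γ (pjL A r0 (n + 3)) ^ 3 * (2 * (pjL A r0 (n + 3) * A) + 2) ^ 2 < ρ ^ (-χ) := by
  obtain ⟨m, hm⟩ : ∃ m : ℕ, m = ⌈((n : ℝ) + 5) / γ⌉₊ := ⟨_, rfl⟩
  have hmγ : (n : ℝ) + 5 ≤ m * γ := by
    have := Nat.le_ceil (((n : ℝ) + 5) / γ)
    rw [← hm, div_le_iff₀ hγ] at this
    exact this
  obtain ⟨C, hC⟩ := pj_poly n m A d0 γ hA hd0 hγ.le
  obtain ⟨η, hη⟩ : ∃ η : ℝ, η = min (χ / (2 * ((C : ℝ) + 1))) (1 / ((m : ℝ) + 1)) := ⟨_, rfl⟩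
  have hη0 : 0 < η := by rw [hη]; exact lt_min (by positivity) (by positivity)
  have hη1 : η * C ≤ χ / 2 := by
    have h1 : η ≤ χ / (2 * ((C : ℝ) + 1)) := by rw [hη]; exact min_le_left _ _
    have h2 : χ / (2 * ((C : ℝ) + 1)) * C ≤ χ / 2 := by
      rw [div_mul_eq_mul_div, div_le_div_iff₀ (by positivity) (by norm_num)]
      nlinarith [Nat.cast_nonneg (α := ℝ) C]
    exact (mul_le_mul_of_nonneg_right h1 (Nat.cast_nonneg C)).trans h2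
  have hη2 : η * m ≤ 1 := by
    have h1 : η ≤ 1 / ((m : ℝ) + 1) := by rw [hη]; exact min_le_right _ _
    have h2 : 1 / ((m : ℝ) + 1) * m ≤ 1 := by
      rw [div_mul_eq_mul_div, div_le_one (by positivity)]
      linarith
    exact (mul_le_mul_of_nonneg_right h1 (Nat.cast_nonneg m)).trans h2
  obtain ⟨ρa, hρa, ha⟩ := pj_num_big (2 * ((n : ℝ) + 3)) η hη0
  obtain ⟨ρb, hρb, hb⟩ := pj_num_big ((C : ℝ) + 1) (χ / 2) (by positivity)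
  refine ⟨η, hη0, min 1 (min ρa ρb), lt_min one_pos (lt_min hρa hρb), min_le_left _ _, fun ρ h0 h1 => ?_⟩
  have hρ1 : ρ ≤ 1 := (h1.trans_le (min_le_left _ _)).le
  have ha' := ha ρ h0 (h1.trans_le ((min_le_right _ _).trans (min_le_left _ _)))
  have hb' := hb ρ h0 (h1.trans_le ((min_le_right _ _).trans (min_le_right _ _)))
  obtain ⟨t, ht⟩ : ∃ t : ℝ, t = ρ ^ (-η) := ⟨_, rfl⟩
  rw [← ht] at ha' ⊢
  have ht1 : 1 ≤ t := by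
    rw [ht]; exact Real.one_le_rpow_of_pos_of_le_one_of_nonpos h0 hρ1 (by linarith)
  have ht0 : 0 < t := by linarith
  have htm : 1 ≤ t ^ m := one_le_pow₀ ht1
  have hr : (t ^ m)⁻¹ = ρ ^ (η * m) := by
    rw [ht, ← Real.rpow_natCast, ← Real.rpow_mul h0.le, ← Real.rpow_neg h0.le]
    congr 1
    ring
  refine ⟨(t ^ m)⁻¹, ?_, inv_le_one_of_one_le₀ htm, ?_, ?_⟩
  · rw [hr]
    calc ρ = ρ ^ (1 : ℝ) := (Real.rpow_one ρ).symm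
      _ ≤ ρ ^ (η * m) := Real.rpow_le_rpow_of_exponent_ge h0 hρ1 hη2
  · have e1 : ((t ^ m)⁻¹) ^ γ = t ^ (-(m * γ)) := by
      rw [← Real.rpow_natCast, ← Real.rpow_neg ht0.le, ← Real.rpow_mul ht0.le]
      congr 1
      ring
    have e2 : t ^ (-(m * γ)) ≤ t ^ (-((n : ℝ) + 5)) := Real.rpow_le_rpow_of_exponent_le ht1 (by linarith)
    have e3 : t⁻¹ ^ (n + 3) = t ^ (-((n : ℝ) + 3)) := by
      rw [inv_pow, ← Real.rpow_natCast, ← Real.rpow_neg ht0.le]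
      push_cast
      rfl
    have e4 : t ^ (-((n : ℝ) + 3)) = t * (t * t ^ (-((n : ℝ) + 5))) := by
      nth_rewrite 2 [← Real.rpow_one t]
      nth_rewrite 3 [← Real.rpow_one t]
      rw [← Real.rpow_add ht0, ← Real.rpow_add ht0]
      congr 1
      ring
    rw [e1, e3, e4]
    have p := Real.rpow_pos_of_pos ht0 (-((n : ℝ) + 5))
    have p' : 0 < t * t ^ (-((n : ℝ) + 5)) := by positivity
    push_cast
    calc ((n : ℝ) + 3) * (t * t ^ (-(m * γ))) ≤ ((n : ℝ) + 3) * (t * t ^ (-((n : ℝ) + 5))) := by gcongr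
      _ ≤ t * (t * t ^ (-((n : ℝ) + 5))) / 2 := by nlinarith
  · refine (hC t ht1).trans_lt ?_
    have e1 : t ^ C = ρ ^ (-(η * C)) := by
      rw [ht, ← Real.rpow_natCast, ← Real.rpow_mul h0.le]
      congr 1
      ring
    have e2 : ρ ^ (-(η * C)) ≤ ρ ^ (-(χ / 2)) := Real.rpow_le_rpow_of_exponent_ge h0 hρ1 (by linarith)
    have e3 : ρ ^ (-χ) = ρ ^ (-(χ / 2)) * ρ ^ (-(χ / 2)) := by
      rw [← Real.rpow_add h0]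
      congr 1
      ring
    have p := Real.rpow_pos_of_pos h0 (-(χ / 2))
    rw [e1, e3]
    calc (C : ℝ) * ρ ^ (-(η * C)) ≤ C * ρ ^ (-(χ / 2)) := by gcongr
      _ < ((C : ℝ) + 1) * ρ ^ (-(χ / 2)) := by nlinarith
      _ ≤ ρ ^ (-(χ / 2)) * ρ ^ (-(χ / 2)) := by gcongr

/-- LEAF `L-PJ-N3`  `1 ≤ pjW` -/
theorem pj_W_one_le (n : ℕ) {K A d0 γ L : ℝ} (hK : 1 ≤ K) (hA : 1 ≤ A) (hd0 : 0 ≤ d0) (hL : 1 ≤ L) : 1 ≤ pjW n K A d0 γ L := by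
  obtain ⟨hE, -, hKH, -⟩ := pj_const_ge n hK hA hd0 hL
  unfold pjW
  have h1 : 0 ≤ K * (L * A ^ 2) ^ γ := mul_nonneg (by linarith) (Real.rpow_nonneg (by positivity) _)
  have h2 : 0 ≤ K ^ 2 * (3 * L * A) ^ (((n + 2 : ℕ) : ℝ) * d0) :=
    mul_nonneg (by positivity) (Real.rpow_nonneg (by positivity) _)
  have h3 : 0 ≤ pjKH n K A d0 L ^ n * (K * pjE n A d0) := by
    have : 0 ≤ pjKH n K A d0 L := by linarith
    have : 0 ≤ pjE n A d0 := by linarith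
    positivity
  have h4 : 0 ≤ 8 * K ^ (n + 3) := by positivity
  linarith

/-- **PROJ(d)**, `d = n+2`: the replacement of the box He20 (rank `d-1` projections in `ℝ^d`, Frostman exponent `d d0`, projections of size `ρ^(-(d-1) d0)` at ALL scales). -/
theorem pj_main (n : ℕ) (d0 γ A : ℝ) (hd0 : 0 < d0) (hd1 : d0 < 1) (hγ : 0 < γ) (hA : 1 ≤ A) :
    ∃ η : ℝ, 0 < η ∧ ∃ ρ₁ : ℝ, 0 < ρ₁ ∧ ∀ ρ : ℝ, 0 < ρ → ρ < ρ₁ →
      ∀ (X T : Type) [Fintype X] [Fintype T] (F : PjCfg (n + 2) X T), ¬ F.Ok ρ (ρ ^ (-η)) A d0 γ := by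
  obtain ⟨χ, hχ, ρ₁, hρ₁, H⟩ := pj_planar d0 γ hd0 hd1 hγ
  obtain ⟨η, hη, ρ₂, hρ₂, hρ₂1, N⟩ := pj_num n A d0 γ χ hA hd0.le hγ hχ
  refine ⟨η, hη, min ρ₁ ρ₂, lt_min hρ₁ hρ₂, fun ρ h0 h1 X T _ _ F hF => ?_⟩
  have hρ1 : ρ ≤ 1 := (h1.trans_le (min_le_right _ _)).le.trans hρ₂1
  obtain ⟨r0, hr0, hr1, hs, hn⟩ := N ρ h0 (h1.trans_le (min_le_right _ _))
  have hK : 1 ≤ ρ ^ (-η) := Real.one_le_rpow_of_pos_of_le_one_of_nonpos h0 hρ1 (by linarith)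
  have hr00 : 0 < r0 := h0.trans_le hr0
  have hL : 1 ≤ pjL A r0 (n + 3) := pj_L_one_le hA hr00 hr1 _
  obtain ⟨μ', ν', a0, a1, sl, G, hP⟩ := pj_core n F hF hK hA h0 hρ1 hd0 hγ hr0 hr1 hs
  exact H ρ h0 (h1.trans_le (min_le_left _ _)) _ _ (pj_W_one_le n hK hA hd0.le hL) (by nlinarith) hn X T μ' ν' a0 a1 sl G hP

end Claimed.Agent.R257
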