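import Mathlib

/-!
# ROW 257, package FR3, unit PROJ (box He20, rank `d-1` projections in `ℝ^d`; H frame.tex l.1330), file 1: COMBINATORICS      (architect helper121)

MATHLIB ONLY, PAPER-FREE.  Discrete Loomis-Whitney and the HEAVY SLICE lemma.   Plan of the unit: report 847, X3 and the header of `Proj/Main.lean`.
Ambient lattice `ℤ × (Fin (n+1) → ℤ)` (dimension `n+2`); the first coordinate is the slicing coordinate.

* `pj_holder`   `x_t^(n+1) ≤ ∏_i a_i(t)`  ⟹  `(∑_t x_t)^(n+1) ≤ ∏_i ∑_t a_i(t)`                                   (leaf L-PJ-C1)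
* `pj_lw`, `pj_hs`, `pj_lw_prod`  Loomis-Whitney in `Fin (n+1) → ℤ`, light slices, LW in the product form (ONE induction) (leaf L-PJ-C2)
* `pj_heavy`    the exit: real parameters                                                                              (leaf L-PJ-C3)
-/

set_option autoImplicit false

namespace Claimed.Agent.R257

open Finset

/-- forget the coordinate `i` -/
def pjDrop {n : ℕ} (i : Fin n) (y : Fin n → ℤ) : Fin n → ℤ := Function.update y i 0

/-- the slice `{y : (t, y) ∈ B}` -/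
def pjSlice {n : ℕ} (B : Finset (ℤ × (Fin n → ℤ))) (t : ℤ) : Finset (Fin n → ℤ) := (B.filter fun p => p.1 = t).image Prod.snd

/-- LEAF `L-PJ-C1` **Hölder with `n+1` factors, power form.**
PLAN.  If some `S_i = ∑_t a_i(t)` vanishes then all `a_i(t) = 0`, so all `x_t = 0` (`pow_eq_zero_iff`), both sides are `0`.  Otherwise put `P = ∏ S_i > 0`, `c = P^(1/(n+1))` (`Real.rpow`);
`x_t ≤ (∏_i a_i(t))^(1/(n+1)) = c ∏_i (a_i(t)/S_i)^(1/(n+1)) ≤ c (n+1)⁻¹ ∑_i a_i(t)/S_i` (`Real.inner_le_nnorm_mul_nnorm` is NOT needed: `Real.geom_mean_le_arith_mean_weighted` with weights `1/(n+1)`);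
sum over `t`: `∑ x_t ≤ c`; raise to the power `n+1` (`Real.rpow_natCast`, `Real.rpow_mul`). -/
theorem pj_holder (n : ℕ) {ι : Type} (s : Finset ι) (x : ι → ℝ) (a : Fin (n + 1) → ι → ℝ) (hx : ∀ t ∈ s, 0 ≤ x t)
    (ha : ∀ i, ∀ t ∈ s, 0 ≤ a i t) (h : ∀ t ∈ s, x t ^ (n + 1) ≤ ∏ i, a i t) :
    (∑ t ∈ s, x t) ^ (n + 1) ≤ ∏ i, ∑ t ∈ s, a i t := by
  have hS0 : ∀ i, 0 ≤ ∑ t ∈ s, a i t := fun i => Finset.sum_nonneg (ha i)
  by_cases hz : ∃ i, ∑ t ∈ s, a i t = 0
  · obtain ⟨i, hi⟩ := hz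
    have h1 : ∀ t ∈ s, x t = 0 := by
      intro t ht
      have h2 : a i t = 0 := (Finset.sum_eq_zero_iff_of_nonneg (ha i)).1 hi t ht
      have h3 : ∏ i, a i t = 0 := Finset.prod_eq_zero (Finset.mem_univ i) h2
      have h4 : x t ^ (n + 1) = 0 := le_antisymm ((h t ht).trans h3.le) (pow_nonneg (hx t ht) _)
      exact (pow_eq_zero_iff (Nat.succ_ne_zero n)).1 h4
    rw [Finset.sum_eq_zero h1, zero_pow (Nat.succ_ne_zero n)]
    exact Finset.prod_nonneg fun i _ => hS0 i
  push Not at hz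
  have hS : ∀ i, 0 < ∑ t ∈ s, a i t := fun i => lt_of_le_of_ne (hS0 i) (hz i).symm
  set S : Fin (n + 1) → ℝ := fun i => ∑ t ∈ s, a i t with hSdef
  have hP : 0 < ∏ i, S i := Finset.prod_pos fun i _ => hS i
  have hn : (0 : ℝ) < (n : ℝ) + 1 := by positivity
  set e : ℝ := 1 / ((n : ℝ) + 1) with he
  have he0 : 0 ≤ e := by positivity
  set c : ℝ := (∏ i, S i) ^ e with hc
  have hc0 : 0 ≤ c := Real.rpow_nonneg hP.le _
  have hcp : c ^ (n + 1) = ∏ i, S i := by
    rw [hc, ← Real.rpow_natCast, ← Real.rpow_mul hP.le]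
    have : e * ((n + 1 : ℕ) : ℝ) = 1 := by
      rw [he]; push_cast; field_simp
    rw [this, Real.rpow_one]
  have hxt : ∀ t ∈ s, x t ≤ c * ∑ i, e * (a i t / S i) := by
    intro t ht
    have hz0 : ∀ i ∈ (Finset.univ : Finset (Fin (n + 1))), 0 ≤ a i t / S i := fun i _ => div_nonneg (ha i t ht) (hS i).le
    have hamgm := Real.geom_mean_le_arith_mean_weighted (Finset.univ : Finset (Fin (n + 1))) (fun _ => e) (fun i => a i t / S i)
      (fun _ _ => he0) (by rw [Finset.sum_const, Finset.card_univ, Fintype.card_fin, nsmul_eq_mul, he]; push_cast; field_simp) hz0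
    rw [Real.finsetProd_rpow _ _ hz0] at hamgm
    have h1 : x t = (x t ^ (n + 1)) ^ e := by
      rw [← Real.rpow_natCast, ← Real.rpow_mul (hx t ht)]
      have : ((n + 1 : ℕ) : ℝ) * e = 1 := by
        rw [he]; push_cast; field_simp
      rw [this, Real.rpow_one]
    have h2 : ∏ i, a i t = (∏ i, S i) * ∏ i, a i t / S i := by
      rw [Finset.prod_div_distrib]
      field_simp
    calc x t = (x t ^ (n + 1)) ^ e := h1
      _ ≤ (∏ i, a i t) ^ e := Real.rpow_le_rpow (pow_nonneg (hx t ht) _) (h t ht) he0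
      _ = c * (∏ i, a i t / S i) ^ e := by
        rw [h2, Real.mul_rpow hP.le (Finset.prod_nonneg hz0)]
      _ ≤ c * ∑ i, e * (a i t / S i) := mul_le_mul_of_nonneg_left hamgm hc0
  have hsum : ∑ t ∈ s, x t ≤ c := by
    calc ∑ t ∈ s, x t ≤ ∑ t ∈ s, c * ∑ i, e * (a i t / S i) := Finset.sum_le_sum hxt
      _ = c * ∑ i, e * ((∑ t ∈ s, a i t) / S i) := by
        rw [← Finset.mul_sum, Finset.sum_comm]
        congr 1
        refine Finset.sum_congr rfl fun i _ => ?_
        rw [← Finset.mul_sum, Finset.sum_div]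
      _ = c * ∑ i : Fin (n + 1), e := by
        congr 1
        refine Finset.sum_congr rfl fun i _ => ?_
        rw [div_self (hS i).ne', mul_one]
      _ = c := by
        rw [Finset.sum_const, Finset.card_univ, Fintype.card_fin, nsmul_eq_mul, he]
        push_cast
        field_simp
  calc (∑ t ∈ s, x t) ^ (n + 1) ≤ c ^ (n + 1) := pow_le_pow_left₀ (Finset.sum_nonneg hx) hsum _
    _ = _ := hcp

theorem pj_slice_card {n : ℕ} (B : Finset (ℤ × (Fin n → ℤ))) (t : ℤ) : (pjSlice B t).card = (B.filter fun p => p.1 = t).card := by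
  unfold pjSlice
  refine Finset.card_image_of_injOn ?_
  intro p hp q hq hpq
  have h1 : p.1 = t := (Finset.mem_filter.1 (Finset.mem_coe.1 hp)).2
  have h2 : q.1 = t := (Finset.mem_filter.1 (Finset.mem_coe.1 hq)).2
  exact Prod.ext (h1.trans h2.symm) hpq

theorem pj_slice_sum_le {n : ℕ} (B : Finset (ℤ × (Fin n → ℤ))) (s : Finset ℤ) (g : (Fin n → ℤ) → (Fin n → ℤ)) :
    ∑ t ∈ s, ((pjSlice B t).image g).card ≤ (B.image fun p => (p.1, g p.2)).card := by
  have h1 : ∀ t ∈ s, ((pjSlice B t).image g).card = (((pjSlice B t).image g).image fun z => (t, z)).card := by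
    intro t _
    refine (Finset.card_image_of_injective _ ?_).symm
    intro z z' hz
    exact (Prod.ext_iff.1 hz).2
  rw [Finset.sum_congr rfl h1, ← Finset.card_biUnion]
  · refine Finset.card_le_card ?_
    intro z hz
    obtain ⟨t, _, hz⟩ := Finset.mem_biUnion.1 hz
    obtain ⟨w, hw, rfl⟩ := Finset.mem_image.1 hz
    obtain ⟨y, hy, rfl⟩ := Finset.mem_image.1 hw
    obtain ⟨p, hp, rfl⟩ := Finset.mem_image.1 hy
    obtain ⟨hpB, rfl⟩ := Finset.mem_filter.1 hp
    exact Finset.mem_image.2 ⟨p, hpB, rfl⟩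
  · intro t _ t' _ htt'
    refine Finset.disjoint_left.2 ?_
    intro z hz hz'
    obtain ⟨w, _, rfl⟩ := Finset.mem_image.1 hz
    obtain ⟨w', _, hw'⟩ := Finset.mem_image.1 hz'
    exact htt' (Prod.ext_iff.1 hw').1.symm

/-- LEAF `L-PJ-C2` (a) **light slices from Loomis-Whitney one dimension lower** (`hlw` = `pj_lw n`).
PLAN.  `s` = the set of `t ∈ B.image Prod.fst` with `|B_t| ≤ θ`, `x_t = |B_t|`, `a_0(t) = θ |π_0 B_t|`?  NO: simpler: apply `pj_holder` to `x_t = |B_t|` and `a_i(t) = |(B_t).image (pjDrop i)|` for `i ≥ 1`,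
`a_0(t) = θ |(B_t).image (pjDrop 0)|` (`Fin.prod_univ_succ`): `|B_t|^(n+1) ≤ |B_t| ∏_i |π_i B_t| ≤ θ ∏_i ..` by `hlw`.   `∑_t |π_i B_t| ≤ |B.image (t, pjDrop i y)|` (disjoint union over `t`: `Finset.card_biUnion` or
`Finset.card_eq_sum_card_fiberwise` along `Prod.fst`), and the filtered set has `∑_{t ∈ s} |B_t|` elements (`Prod.snd` is injective on a slice). -/
theorem pj_hs_of_lw (n : ℕ)
    (hlw : ∀ D : Finset (Fin (n + 1) → ℤ), D.card ^ (n + 1) ≤ D.card * ∏ i, (D.image (pjDrop i)).card)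
    (B : Finset (ℤ × (Fin (n + 1) → ℤ))) (θ : ℕ) :
    (B.filter fun p => (pjSlice B p.1).card ≤ θ).card ^ (n + 1) ≤ θ * ∏ i, (B.image fun p => (p.1, pjDrop i p.2)).card := by
  set s : Finset ℤ := (B.image Prod.fst).filter fun t => (pjSlice B t).card ≤ θ with hs
  have hcard : (B.filter fun p => (pjSlice B p.1).card ≤ θ).card = ∑ t ∈ s, (pjSlice B t).card := by
    rw [Finset.card_eq_sum_card_fiberwise (f := Prod.fst) (t := s)]
    · refine Finset.sum_congr rfl fun t ht => ?_
      rw [pj_slice_card, Finset.filter_filter]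
      congr 1
      refine Finset.filter_congr fun p _ => ?_
      constructor
      · exact fun h => h.2
      · intro h
        refine ⟨?_, h⟩
        rw [h]
        exact (Finset.mem_filter.1 ht).2
    · intro p hp
      have hp' := Finset.mem_filter.1 (Finset.mem_coe.1 hp)
      exact Finset.mem_coe.2 (Finset.mem_filter.2 ⟨Finset.mem_image_of_mem _ hp'.1, hp'.2⟩)
  have hH := pj_holder n s (fun t => ((pjSlice B t).card : ℝ))
    (fun i t => (if i = 0 then (θ : ℝ) else 1) * (((pjSlice B t).image (pjDrop i)).card : ℝ))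
    (fun _ _ => Nat.cast_nonneg _)
    (fun i t _ => mul_nonneg (by split_ifs <;> positivity) (Nat.cast_nonneg _))
    (by
      intro t ht
      rw [Finset.prod_mul_distrib, Finset.prod_ite_eq' Finset.univ (0 : Fin (n + 1)) (fun _ => (θ : ℝ)), if_pos (Finset.mem_univ _)]
      have h1 := hlw (pjSlice B t)
      have h2 : (pjSlice B t).card ^ (n + 1) ≤ θ * ∏ i, ((pjSlice B t).image (pjDrop i)).card :=
        h1.trans (Nat.mul_le_mul_right _ (Finset.mem_filter.1 ht).2)
      exact_mod_cast h2)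
  have h3 : ∏ i : Fin (n + 1), ∑ t ∈ s, (if i = 0 then (θ : ℝ) else 1) * (((pjSlice B t).image (pjDrop i)).card : ℝ)
      = ((θ * ∏ i : Fin (n + 1), ∑ t ∈ s, ((pjSlice B t).image (pjDrop i)).card : ℕ) : ℝ) := by
    simp only [← Finset.mul_sum]
    rw [Finset.prod_mul_distrib, Finset.prod_ite_eq' Finset.univ (0 : Fin (n + 1)) (fun _ => (θ : ℝ)), if_pos (Finset.mem_univ _)]
    push_cast
    rfl
  rw [h3] at hH
  have h4 : (∑ t ∈ s, (pjSlice B t).card) ^ (n + 1) ≤ θ * ∏ i : Fin (n + 1), ∑ t ∈ s, ((pjSlice B t).image (pjDrop i)).card := by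
    exact_mod_cast hH
  rw [hcard]
  refine h4.trans (Nat.mul_le_mul_left _ ?_)
  exact Finset.prod_le_prod' fun i _ => pj_slice_sum_le B s (pjDrop i)

/-- LEAF `L-PJ-C2` (b) **discrete Loomis-Whitney** in the form `|D|^(n+1) ≤ |D| ∏_i |π_i D|` (dimension `n+1`; true for `D = ∅` too).
PLAN.  Induction on `n`.  `n = 0`: `D.image (pjDrop 0)` is nonempty if `D` is.   Step `n → n+1`: transport `D` to `B = D.image fun x => (x 0, Fin.tail x)` (injective: `Fin.cons_self_tail`);
`pj_hs_of_lw n ih B θ` with `θ = |B.image Prod.snd|` (every slice is light), so `|D|^(n+1) ≤ |π_0 D| ∏_i |π_{i+1} D|` (`Fin.prod_univ_succ`; `pjDrop 0 x ↔ Fin.tail x`, `pjDrop i.succ x ↔ (x 0, pjDrop i (Fin.tail x))`: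
`Fin.tail_update_succ`, `Fin.tail_update_zero`, cardinalities of images under injective re-encodings: `Finset.card_image_of_injOn`, or `Finset.card_le_card_of_surjOn`); multiply by `|D|`. -/
theorem pj_lw (n : ℕ) (D : Finset (Fin (n + 1) → ℤ)) : D.card ^ (n + 1) ≤ D.card * ∏ i, (D.image (pjDrop i)).card := by
  induction n with
  | zero =>
    rcases D.eq_empty_or_nonempty with rfl | hD
    · simp
    · have h1 : 1 ≤ (D.image (pjDrop (0 : Fin 1))).card := Finset.card_pos.2 (hD.image _)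
      rw [Fin.prod_univ_succ]
      simp only [zero_add, pow_one, Finset.univ_eq_empty, Finset.prod_empty, mul_one]
      exact Nat.le_mul_of_pos_right _ h1
  | succ n ih =>
    set B : Finset (ℤ × (Fin (n + 1) → ℤ)) := D.image fun x => (x 0, Fin.tail x) with hB
    have hBc : B.card = D.card := by
      refine Finset.card_image_of_injective _ ?_
      intro x x' hxx
      have h1 := (Prod.ext_iff.1 hxx).1
      have h2 := (Prod.ext_iff.1 hxx).2
      simp only at h1 h2
      rw [← Fin.cons_self_tail x, ← Fin.cons_self_tail x', h1, h2]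
    have h := pj_hs_of_lw n ih B (B.image Prod.snd).card
    have e : (B.filter fun p => (pjSlice B p.1).card ≤ (B.image Prod.snd).card) = B := by
      refine Finset.filter_true_of_mem fun p _ => Finset.card_le_card ?_
      exact Finset.image_subset_image (Finset.filter_subset _ _)
    rw [e, hBc] at h
    have h0 : (B.image Prod.snd).card ≤ (D.image (pjDrop 0)).card := by
      have : B.image Prod.snd = (D.image (pjDrop 0)).image Fin.tail := by
        rw [hB, Finset.image_image, Finset.image_image]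
        refine Finset.image_congr fun x _ => ?_
        simp only [Function.comp, pjDrop, Fin.tail_update_zero]
      rw [this]
      exact Finset.card_image_le
    have hi : ∀ i : Fin (n + 1), (B.image fun p => (p.1, pjDrop i p.2)).card ≤ (D.image (pjDrop i.succ)).card := by
      intro i
      have : (B.image fun p => (p.1, pjDrop i p.2)) = (D.image (pjDrop i.succ)).image fun x => (x 0, Fin.tail x) := by
        rw [hB, Finset.image_image, Finset.image_image]
        refine Finset.image_congr fun x _ => ?_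
        simp only [Function.comp, pjDrop, Fin.tail_update_succ]
        rw [Function.update_of_ne (Fin.succ_ne_zero i).symm]
      rw [this]
      exact Finset.card_image_le
    rw [pow_succ', Fin.prod_univ_succ]
    refine Nat.mul_le_mul_left _ (h.trans ?_)
    exact Nat.mul_le_mul h0 (Finset.prod_le_prod' fun i _ => hi i)

/-- light slices -/
theorem pj_hs (n : ℕ) (B : Finset (ℤ × (Fin (n + 1) → ℤ))) (θ : ℕ) :
    (B.filter fun p => (pjSlice B p.1).card ≤ θ).card ^ (n + 1) ≤ θ * ∏ i, (B.image fun p => (p.1, pjDrop i p.2)).card :=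
  pj_hs_of_lw n (pj_lw n) B θ

/-- Loomis-Whitney, product form (dimension `n+2`) -/
theorem pj_lw_prod (n : ℕ) (B : Finset (ℤ × (Fin (n + 1) → ℤ))) :
    B.card ^ (n + 1) ≤ (B.image Prod.snd).card * ∏ i, (B.image fun p => (p.1, pjDrop i p.2)).card := by
  have h := pj_hs n B (B.image Prod.snd).card
  have e : (B.filter fun p => (pjSlice B p.1).card ≤ (B.image Prod.snd).card) = B := by
    refine Finset.filter_true_of_mem fun p _ => Finset.card_le_card ?_
    exact Finset.image_subset_image (Finset.filter_subset _ _)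
  rwa [e] at h

/-- LEAF `L-PJ-C3` **HEAVY SLICES** (exit of this file).  All `n+2` coordinate projections of `B ⊆ ℤ^(n+2)` have `≤ P^(n+1)` points.  Then, for every `ϑ > 0`, the slices with more than `ϑ^(n+1)` points
are at most `P^(n+2)/ϑ^(n+1)`, and the other slices contain together at most `ϑ P^(n+1)` points.
PLAN.  `θ = ⌊ϑ^(n+1)⌋₊`, `H = (B.image Prod.fst).filter fun t => θ < |B_t|`.   (i) `p.1 ∉ H ↔ |B_{p.1}| ≤ θ` for `p ∈ B`; `pj_hs`: `light^(n+1) ≤ θ ∏ .. ≤ ϑ^(n+1) (P^(n+1))^(n+1) = (ϑ P^(n+1))^(n+1)`, `pow_le_pow_iff_left₀`.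
(ii) `|H| ϑ^(n+1) ≤ ∑_{t ∈ H} |B_t| ≤ |B|` (`Nat.lt_floor_add_one`/`Nat.floor_lt`), `|B|^(n+1) ≤ P^(n+1) (P^(n+1))^(n+1) = (P^(n+2))^(n+1)` by `pj_lw_prod`. -/
theorem pj_heavy (n : ℕ) (B : Finset (ℤ × (Fin (n + 1) → ℤ))) (P ϑ : ℝ) (hP : 0 ≤ P) (hϑ : 0 < ϑ)
    (h0 : ((B.image Prod.snd).card : ℝ) ≤ P ^ (n + 1))
    (hi : ∀ i, ((B.image fun p => (p.1, pjDrop i p.2)).card : ℝ) ≤ P ^ (n + 1)) :
    ∃ H : Finset ℤ, (H.card : ℝ) * ϑ ^ (n + 1) ≤ P ^ (n + 2) ∧ ((B.filter fun p => p.1 ∉ H).card : ℝ) ≤ ϑ * P ^ (n + 1) := by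
  set θ : ℕ := ⌊ϑ ^ (n + 1)⌋₊ with hθ
  have hθ1 : (θ : ℝ) ≤ ϑ ^ (n + 1) := Nat.floor_le (by positivity)
  have hθ2 : ϑ ^ (n + 1) < (θ : ℝ) + 1 := Nat.lt_floor_add_one _
  have hprod : (∏ i : Fin (n + 1), ((B.image fun p => (p.1, pjDrop i p.2)).card : ℝ)) ≤ (P ^ (n + 1)) ^ (n + 1) := by
    calc _ ≤ ∏ _i : Fin (n + 1), P ^ (n + 1) := Finset.prod_le_prod (fun _ _ => Nat.cast_nonneg _) fun i _ => hi i
      _ = _ := by rw [Finset.prod_const, Finset.card_univ, Fintype.card_fin]
  have hprod0 : (0 : ℝ) ≤ ∏ i : Fin (n + 1), ((B.image fun p => (p.1, pjDrop i p.2)).card : ℝ) :=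
    Finset.prod_nonneg fun _ _ => Nat.cast_nonneg _
  refine ⟨(B.image Prod.fst).filter fun t => θ < (pjSlice B t).card, ?_, ?_⟩
  · have hB : (B.card : ℝ) ≤ P ^ (n + 2) := by
      have h1 := pj_lw_prod n B
      have h2 : (B.card : ℝ) ^ (n + 1) ≤ ((B.image Prod.snd).card : ℝ) * ∏ i : Fin (n + 1), ((B.image fun p => (p.1, pjDrop i p.2)).card : ℝ) := by
        exact_mod_cast h1
      have h3 : (B.card : ℝ) ^ (n + 1) ≤ (P ^ (n + 2)) ^ (n + 1) := by
        calc _ ≤ _ := h2
          _ ≤ P ^ (n + 1) * (P ^ (n + 1)) ^ (n + 1) := mul_le_mul h0 hprod hprod0 (by positivity)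
          _ = _ := by ring
      exact (pow_le_pow_iff_left₀ (Nat.cast_nonneg _) (by positivity) (Nat.succ_ne_zero n)).1 h3
    refine le_trans ?_ hB
    have h4 : B.card = ∑ t ∈ B.image Prod.fst, (pjSlice B t).card := by
      rw [Finset.card_eq_sum_card_fiberwise (f := Prod.fst) (t := B.image Prod.fst)]
      · exact Finset.sum_congr rfl fun t _ => (pj_slice_card B t).symm
      · intro p hp
        exact Finset.mem_coe.2 (Finset.mem_image_of_mem _ (Finset.mem_coe.1 hp))
    have h5 : ∑ t ∈ (B.image Prod.fst).filter (fun t => θ < (pjSlice B t).card), (pjSlice B t).card ≤ B.card := by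
      rw [h4]
      exact Finset.sum_le_sum_of_subset (Finset.filter_subset _ _)
    have h6 : (((B.image Prod.fst).filter fun t => θ < (pjSlice B t).card).card : ℝ) * ϑ ^ (n + 1)
        ≤ ∑ t ∈ (B.image Prod.fst).filter (fun t => θ < (pjSlice B t).card), ((pjSlice B t).card : ℝ) := by
      rw [← nsmul_eq_mul]
      refine Finset.card_nsmul_le_sum _ _ _ fun t ht => ?_
      have h7 : θ + 1 ≤ (pjSlice B t).card := (Finset.mem_filter.1 ht).2
      have h8 : (θ : ℝ) + 1 ≤ ((pjSlice B t).card : ℝ) := by exact_mod_cast h7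
      linarith
    refine h6.trans ?_
    exact_mod_cast h5
  · have e : (B.filter fun p => p.1 ∉ (B.image Prod.fst).filter fun t => θ < (pjSlice B t).card)
        = B.filter fun p => (pjSlice B p.1).card ≤ θ := by
      refine Finset.filter_congr fun p hp => ?_
      rw [Finset.mem_filter, not_and, not_lt]
      exact ⟨fun h => h (Finset.mem_image_of_mem _ hp), fun h _ => h⟩
    rw [e]
    have h1 := pj_hs n B θ
    have h2 : ((B.filter fun p => (pjSlice B p.1).card ≤ θ).card : ℝ) ^ (n + 1)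
        ≤ (θ : ℝ) * ∏ i : Fin (n + 1), ((B.image fun p => (p.1, pjDrop i p.2)).card : ℝ) := by
      exact_mod_cast h1
    have h3 : ((B.filter fun p => (pjSlice B p.1).card ≤ θ).card : ℝ) ^ (n + 1) ≤ (ϑ * P ^ (n + 1)) ^ (n + 1) := by
      calc _ ≤ _ := h2
        _ ≤ ϑ ^ (n + 1) * (P ^ (n + 1)) ^ (n + 1) := mul_le_mul hθ1 hprod hprod0 (by positivity)
        _ = _ := by ring
    exact (pow_le_pow_iff_left₀ (Nat.cast_nonneg _) (by positivity) (Nat.succ_ne_zero n)).1 h3

end Claimed.Agent.R257
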