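import Claimed.Agent.R257.Proj.Defs

/-!
# ROW 257, package FR3, unit PROJ, file 6: THE PLANAR CONFIGURATION CONTRADICTS `RW.ex_W1`      (architect helper121)

PAPER-FREE.  No `ℝ^d` here.  `a0, a1` = two coordinates of the points, `sl` = slopes of the tags (`|sl| ≤ 1`), `μ, ν` are already restricted to the good points / good tags.
`ex_W1` is used with `(β, γ, σ, A) = (d0, γ, d0, 2)`.
-/

set_option autoImplicit false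

namespace Claimed.Agent.R257

open Finset Matrix Claimed.Agent.RW
open scoped Classical

/-- abstract planar configuration with loss `W`; the coordinates are bounded by `R` (NOT by a constant) -/
structure PjPl {X T : Type} [Fintype X] [Fintype T] (ρ W R d0 γ : ℝ) (μ : X → ℝ) (ν : T → ℝ) (a0 a1 : X → ℝ) (sl : T → ℝ)
    (G : Finset (X × T)) : Prop where
  μ0 : ∀ x, 0 ≤ μ x
  ν0 : ∀ b, 0 ≤ ν b
  μ1 : ∑ x, μ x ≤ 1
  ν1 : ∑ b, ν b ≤ 1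
  ha0 : ∀ x, |a0 x| ≤ R
  ha1 : ∀ x, |a1 x| ≤ R
  hsl : ∀ b, |sl b| ≤ 1
  slope : KfFrost ν sl W γ ρ
  marg : KfFrost μ a0 W d0 ρ
  cell : ∀ k0 k1 : ℤ, ∑ x with ⌊a0 x / ρ⌋ = k0 ∧ ⌊a1 x / ρ⌋ = k1, μ x ≤ W * ρ ^ (2 * d0)
  lab : ∃ H0 : Finset ℤ, (H0.card : ℝ) ≤ W * ρ ^ (-d0) ∧ ∀ x, μ x ≠ 0 → ⌊a0 x / ρ⌋ ∈ H0
  proj : ∀ b, ∃ H : Finset ℤ, (H.card : ℝ) ≤ W * ρ ^ (-d0) ∧ ∀ x, (x, b) ∈ G → ⌊(a1 x - sl b * a0 x) / ρ⌋ ∈ H
  mass : W⁻¹ ≤ ∑ p ∈ G, μ p.1 * ν p.2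

/-- the `a0`-cell of `x` is heavy -/
def pjHv {X : Type} [Fintype X] (ρ W d0 : ℝ) (μ a0 : X → ℝ) (x : X) : Prop :=
  (2 * W ^ 2)⁻¹ * ρ ^ d0 ≤ ∑ y with ⌊a0 y / ρ⌋ = ⌊a0 x / ρ⌋, μ y

/-- heavy cell and unit square `(p0, p1)` -/
def pjIn {X : Type} [Fintype X] (ρ W d0 : ℝ) (μ a0 a1 : X → ℝ) (p0 p1 : ℤ) (x : X) : Prop :=
  pjHv ρ W d0 μ a0 x ∧ ⌊a0 x⌋ = p0 ∧ ⌊a1 x⌋ = p1

/-- LEAF `L-PJ-A1` **the light cells carry little mass.**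
PLAN.  Terms with `μ x = 0` drop; the others have `⌊a0 x/ρ⌋ ∈ H0`: `∑_{¬Hv} μ ≤ ∑_{k ∈ H0} ∑_{x : lab x = k ∧ ¬Hv x} μ x` (`Finset.sum_fiberwise_of_maps_to` on the filter `μ x ≠ 0 ∧ ¬Hv x`);
for fixed `k` the inner sum is `0` or (some `x0` in it) `≤ ∑_{y : lab y = lab x0} μ y < (2W²)⁻¹ ρ^d0`; `|H0| (2W²)⁻¹ ρ^d0 ≤ W ρ^(-d0) (2W²)⁻¹ ρ^d0 = (2W)⁻¹`. -/
theorem pj_pl_light {X T : Type} [Fintype X] [Fintype T] {ρ W R d0 γ : ℝ} {μ : X → ℝ} {ν : T → ℝ} {a0 a1 : X → ℝ} {sl : T → ℝ}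
    {G : Finset (X × T)} (h : PjPl ρ W R d0 γ μ ν a0 a1 sl G) (hρ : 0 < ρ) (hW : 1 ≤ W) :
    ∑ x with ¬ pjHv ρ W d0 μ a0 x, μ x ≤ (2 * W)⁻¹ := by
  obtain ⟨H0, hc, hl⟩ := h.lab
  have hW0 : 0 < W := by linarith
  have hρd : 0 < ρ ^ d0 := Real.rpow_pos_of_pos hρ _
  have hb : 0 ≤ (2 * W ^ 2)⁻¹ * ρ ^ d0 := by positivity
  have e1 : ∑ x with ¬ pjHv ρ W d0 μ a0 x, μ x = ∑ x ∈ (univ.filter fun x => ¬ pjHv ρ W d0 μ a0 x).filter (fun x => μ x ≠ 0), μ x :=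
    (Finset.sum_filter_ne_zero _).symm
  have hmaps : ∀ x ∈ (univ.filter fun x => ¬ pjHv ρ W d0 μ a0 x).filter (fun x => μ x ≠ 0), ⌊a0 x / ρ⌋ ∈ H0 :=
    fun x hx => hl x (Finset.mem_filter.1 hx).2
  rw [e1, ← Finset.sum_fiberwise_of_maps_to hmaps]
  have hk : ∀ k ∈ H0, ∑ x ∈ ((univ.filter fun x => ¬ pjHv ρ W d0 μ a0 x).filter (fun x => μ x ≠ 0)).filter (fun x => ⌊a0 x / ρ⌋ = k), μ x
      ≤ (2 * W ^ 2)⁻¹ * ρ ^ d0 := by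
    intro k _
    rcases Finset.eq_empty_or_nonempty (((univ.filter fun x => ¬ pjHv ρ W d0 μ a0 x).filter (fun x => μ x ≠ 0)).filter (fun x => ⌊a0 x / ρ⌋ = k)) with he | ⟨x0, hx0⟩
    · rw [he, Finset.sum_empty]
      exact hb
    · simp only [Finset.mem_filter, Finset.mem_univ, true_and] at hx0
      obtain ⟨⟨h1, -⟩, h3⟩ := hx0
      have h4 : ∑ y with ⌊a0 y / ρ⌋ = ⌊a0 x0 / ρ⌋, μ y < (2 * W ^ 2)⁻¹ * ρ ^ d0 := not_le.1 h1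
      refine le_trans ?_ h4.le
      refine Finset.sum_le_sum_of_subset_of_nonneg ?_ fun y _ _ => h.μ0 y
      intro y hy
      simp only [Finset.mem_filter, Finset.mem_univ, true_and] at hy ⊢
      rw [hy.2, h3]
  calc _ ≤ ∑ _k ∈ H0, (2 * W ^ 2)⁻¹ * ρ ^ d0 := Finset.sum_le_sum hk
    _ = (H0.card : ℝ) * ((2 * W ^ 2)⁻¹ * ρ ^ d0) := by rw [Finset.sum_const, nsmul_eq_mul]
    _ ≤ W * ρ ^ (-d0) * ((2 * W ^ 2)⁻¹ * ρ ^ d0) := by gcongr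
    _ = (2 * W)⁻¹ := by
        rw [Real.rpow_neg hρ.le]
        field_simp

/-- LEAF `L-PJ-A2` **pigeonhole on unit squares.**
PLAN.  `I = Finset.Icc ⌊-R⌋ ⌊R⌋`, `(I.card : ℝ) ≤ 2R+2` (`Int.card_Icc`, `Int.floor_le`, `Int.lt_floor_add_one`; `0 ≤ R` if `s` is nonempty, the empty case is trivial with `p0 = p1 = 0`).
`∑_s f = ∑_{(p0,p1) ∈ I ×ˢ I} ∑_{i ∈ s, floors = (p0,p1)} f` (`Finset.sum_fiberwise_of_maps_to`), `≤ |I|² max` (`Finset.exists_max_image` or `Finset.exists_le_of_sum_le`-style contradiction). -/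
theorem pj_pigeon {ι : Type} (s : Finset ι) (f a0 a1 : ι → ℝ) (R : ℝ) (hf : ∀ i ∈ s, 0 ≤ f i) (h0 : ∀ i ∈ s, |a0 i| ≤ R)
    (h1 : ∀ i ∈ s, |a1 i| ≤ R) :
    ∃ p0 p1 : ℤ, ∑ i ∈ s, f i ≤ (2 * R + 2) ^ 2 * ∑ i ∈ s with ⌊a0 i⌋ = p0 ∧ ⌊a1 i⌋ = p1, f i := by
  rcases s.eq_empty_or_nonempty with rfl | ⟨i₀, hi₀⟩
  · exact ⟨0, 0, by simp⟩
  have hR : 0 ≤ R := (abs_nonneg _).trans (h0 i₀ hi₀)
  set I : Finset ℤ := Finset.Icc ⌊-R⌋ ⌊R⌋ with hI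
  have hcard : (I.card : ℝ) ≤ 2 * R + 2 := by
    rw [hI, Int.card_Icc]
    have h2 : ⌊-R⌋ ≤ ⌊R⌋ + 1 := (Int.floor_le_floor (by linarith : -R ≤ R)).trans (by omega)
    have h3 : (((⌊R⌋ + 1 - ⌊-R⌋).toNat : ℕ) : ℝ) = ((⌊R⌋ + 1 - ⌊-R⌋ : ℤ) : ℝ) := by
      have : (((⌊R⌋ + 1 - ⌊-R⌋).toNat : ℕ) : ℤ) = ⌊R⌋ + 1 - ⌊-R⌋ := Int.toNat_of_nonneg (by omega)
      exact_mod_cast this
    rw [h3]
    push_cast
    have h4 := Int.floor_le R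
    have h5 := Int.lt_floor_add_one (-R)
    linarith
  have hmem : ∀ a : ℝ, |a| ≤ R → ⌊a⌋ ∈ I := by
    intro a ha
    rw [hI, Finset.mem_Icc]
    exact ⟨Int.floor_le_floor (abs_le.1 ha).1, Int.floor_le_floor (abs_le.1 ha).2⟩
  set g : ℤ × ℤ → ℝ := fun p => ∑ i ∈ s with ⌊a0 i⌋ = p.1 ∧ ⌊a1 i⌋ = p.2, f i with hg
  have hg0 : ∀ p, 0 ≤ g p := fun p => Finset.sum_nonneg fun i hi => hf i (Finset.mem_filter.1 hi).1
  have hsum : ∑ i ∈ s, f i = ∑ p ∈ I ×ˢ I, g p := by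
    rw [← Finset.sum_fiberwise_of_maps_to (s := s) (t := I ×ˢ I) (g := fun i => (⌊a0 i⌋, ⌊a1 i⌋))
      (fun i hi => Finset.mem_product.2 ⟨hmem _ (h0 i hi), hmem _ (h1 i hi)⟩)]
    refine Finset.sum_congr rfl fun p _ => ?_
    rw [hg]
    refine Finset.sum_congr (Finset.filter_congr fun i _ => ?_) fun _ _ => rfl
    exact Prod.ext_iff
  have hne : (I ×ˢ I).Nonempty := ⟨(⌊a0 i₀⌋, ⌊a1 i₀⌋), Finset.mem_product.2 ⟨hmem _ (h0 i₀ hi₀), hmem _ (h1 i₀ hi₀)⟩⟩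
  obtain ⟨p, -, hp⟩ := Finset.exists_max_image (I ×ˢ I) g hne
  refine ⟨p.1, p.2, ?_⟩
  rw [hsum]
  calc ∑ p' ∈ I ×ˢ I, g p' ≤ ∑ _p' ∈ I ×ˢ I, g p := Finset.sum_le_sum hp
    _ = (I.card : ℝ) ^ 2 * g p := by
        rw [Finset.sum_const, Finset.card_product, nsmul_eq_mul]
        push_cast
        ring
    _ ≤ (2 * R + 2) ^ 2 * g p := by
        refine mul_le_mul_of_nonneg_right ?_ (hg0 p)
        exact pow_le_pow_left₀ (Nat.cast_nonneg _) hcard 2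

theorem pj_floor_near {u s : ℝ} (h : |u - s| ≤ 1) : ⌊u⌋ ∈ Finset.Icc (⌊s⌋ - 1) (⌊s⌋ + 1) := by
  obtain ⟨h1, h2⟩ := abs_le.1 h
  rw [Finset.mem_Icc]
  constructor
  · rw [← Int.floor_sub_one]
    exact Int.floor_mono (by linarith)
  · rw [← Int.floor_add_one]
    exact Int.floor_mono (by linarith)

theorem pj_card_Icc3 (k : ℤ) : (Finset.Icc (k - 1) (k + 1)).card = 3 := by
  rw [Int.card_Icc]
  have : k + 1 + 1 - (k - 1) = 3 := by ring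
  rw [this]
  rfl

/-- LEAF `L-PJ-A3` **the hypothesis `hU` of `ex_W1`.**
PLAN.  If no `x` with `pjIn x` lies in the ball, the left side is `0`.   Else fix such an `x0`.   RIGHT: every `y` in the `a0`-cell of `x0` has `|a0 y - a0 x0| ≤ ρ` (equal floors), `|a0 x0 - p0 - z.1| ≤ ρ`
(`Prod.dist_eq`, `le_max_left`), so the right sum is `≥ ∑_{cell of x0} μ ≥ (2W²)⁻¹ ρ^d0` (`pjHv`).
LEFT: `x` in the ball with `pjIn x`: `a0 x/ρ ∈ [s-1, s+1]`, `s = (z.1+p0)/ρ`, so `⌊a0 x/ρ⌋ ∈ {⌊s⌋-1, ⌊s⌋, ⌊s⌋+1}`, the same for `a1`: the left sum is `≤ ∑_{(k0,k1) ∈ 3 × 3} cell ≤ 9 W ρ^(2 d0)` (`h.cell`).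
`9 W ρ^(2 d0) = 18 W³ ρ^d0 ((2W²)⁻¹ ρ^d0)`. -/
theorem pj_pl_hU {X T : Type} [Fintype X] [Fintype T] {ρ W R d0 γ : ℝ} {μ : X → ℝ} {ν : T → ℝ} {a0 a1 : X → ℝ} {sl : T → ℝ}
    {G : Finset (X × T)} (h : PjPl ρ W R d0 γ μ ν a0 a1 sl G) (hρ : 0 < ρ) (hW : 1 ≤ W) (p0 p1 : ℤ) (z : ℝ × ℝ) :
    ∑ x with dist (if pjIn ρ W d0 μ a0 a1 p0 p1 x then ((a0 x - p0, a1 x - p1) : ℝ × ℝ) else (0, 0)) z ≤ ρ,
        (if pjIn ρ W d0 μ a0 a1 p0 p1 x then μ x else 0) ≤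
      18 * W ^ 3 * ρ ^ d0 * ∑ j with dist (a0 j - p0) z.1 ≤ 2 * ρ, μ j := by
  have hW0 : 0 < W := by linarith
  have hρd : 0 < ρ ^ d0 := Real.rpow_pos_of_pos hρ _
  have hR0 : 0 ≤ ∑ j with dist (a0 j - p0) z.1 ≤ 2 * ρ, μ j := Finset.sum_nonneg fun j _ => h.μ0 j
  have hS : (univ.filter fun x => dist (if pjIn ρ W d0 μ a0 a1 p0 p1 x then ((a0 x - p0, a1 x - p1) : ℝ × ℝ) else (0, 0)) z ≤ ρ).filter
      (fun x => pjIn ρ W d0 μ a0 a1 p0 p1 x)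
      = univ.filter fun x => pjIn ρ W d0 μ a0 a1 p0 p1 x ∧ dist ((a0 x - p0, a1 x - p1) : ℝ × ℝ) z ≤ ρ := by
    ext x
    simp only [Finset.mem_filter, Finset.mem_univ, true_and]
    constructor
    · rintro ⟨h1, h2⟩
      rw [if_pos h2] at h1
      exact ⟨h2, h1⟩
    · rintro ⟨h2, h1⟩
      exact ⟨by rw [if_pos h2]; exact h1, h2⟩
  rw [← Finset.sum_filter, hS]
  rcases Finset.eq_empty_or_nonempty (univ.filter fun x => pjIn ρ W d0 μ a0 a1 p0 p1 x ∧ dist ((a0 x - p0, a1 x - p1) : ℝ × ℝ) z ≤ ρ) with he | ⟨x0, hx0⟩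
  · rw [he, Finset.sum_empty]
    positivity
  simp only [Finset.mem_filter, Finset.mem_univ, true_and] at hx0
  obtain ⟨hIn0, hd0⟩ := hx0
  have hHv : (2 * W ^ 2)⁻¹ * ρ ^ d0 ≤ ∑ y with ⌊a0 y / ρ⌋ = ⌊a0 x0 / ρ⌋, μ y := hIn0.1
  -- the right side
  have hright : (2 * W ^ 2)⁻¹ * ρ ^ d0 ≤ ∑ j with dist (a0 j - p0) z.1 ≤ 2 * ρ, μ j := by
    refine hHv.trans (Finset.sum_le_sum_of_subset_of_nonneg ?_ fun j _ _ => h.μ0 j)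
    intro y hy
    simp only [Finset.mem_filter, Finset.mem_univ, true_and] at hy ⊢
    have h1 := Int.abs_sub_lt_one_of_floor_eq_floor hy
    rw [← sub_div, abs_div, abs_of_pos hρ, div_lt_one hρ] at h1
    have h2 : dist (a0 x0 - p0) z.1 ≤ ρ := by
      refine le_trans ?_ hd0
      rw [Prod.dist_eq]
      exact le_max_left _ _
    have h3 : dist (a0 y - p0) (a0 x0 - p0) ≤ ρ := by
      rw [Real.dist_eq]
      have : a0 y - p0 - (a0 x0 - p0) = a0 y - a0 x0 := by ring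
      rw [this]
      exact h1.le
    calc dist (a0 y - p0) z.1 ≤ dist (a0 y - p0) (a0 x0 - p0) + dist (a0 x0 - p0) z.1 := dist_triangle _ _ _
      _ ≤ 2 * ρ := by linarith
  -- the left side
  have hmaps : ∀ x ∈ univ.filter fun x => pjIn ρ W d0 μ a0 a1 p0 p1 x ∧ dist ((a0 x - p0, a1 x - p1) : ℝ × ℝ) z ≤ ρ,
      ((⌊a0 x / ρ⌋, ⌊a1 x / ρ⌋) : ℤ × ℤ) ∈ Finset.Icc (⌊(z.1 + p0) / ρ⌋ - 1) (⌊(z.1 + p0) / ρ⌋ + 1) ×ˢ Finset.Icc (⌊(z.2 + p1) / ρ⌋ - 1) (⌊(z.2 + p1) / ρ⌋ + 1) := by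
    intro x hx
    simp only [Finset.mem_filter, Finset.mem_univ, true_and] at hx
    have hd := hx.2
    rw [Prod.dist_eq, max_le_iff, Real.dist_eq, Real.dist_eq] at hd
    rw [Finset.mem_product]
    constructor
    · refine pj_floor_near ?_
      rw [← sub_div, abs_div, abs_of_pos hρ, div_le_one hρ]
      have : a0 x - (z.1 + p0) = a0 x - p0 - z.1 := by ring
      rw [this]
      exact hd.1
    · refine pj_floor_near ?_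
      rw [← sub_div, abs_div, abs_of_pos hρ, div_le_one hρ]
      have : a1 x - (z.2 + p1) = a1 x - p1 - z.2 := by ring
      rw [this]
      exact hd.2
  have hleft : ∑ x with pjIn ρ W d0 μ a0 a1 p0 p1 x ∧ dist ((a0 x - p0, a1 x - p1) : ℝ × ℝ) z ≤ ρ, μ x ≤ 9 * (W * ρ ^ (2 * d0)) := by
    rw [← Finset.sum_fiberwise_of_maps_to hmaps]
    calc _ ≤ ∑ _k ∈ Finset.Icc (⌊(z.1 + p0) / ρ⌋ - 1) (⌊(z.1 + p0) / ρ⌋ + 1) ×ˢ Finset.Icc (⌊(z.2 + p1) / ρ⌋ - 1) (⌊(z.2 + p1) / ρ⌋ + 1), W * ρ ^ (2 * d0) := by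
          refine Finset.sum_le_sum fun k _ => ?_
          refine le_trans ?_ (h.cell k.1 k.2)
          refine Finset.sum_le_sum_of_subset_of_nonneg ?_ fun j _ _ => h.μ0 j
          intro x hx
          simp only [Finset.mem_filter, Finset.mem_univ, true_and] at hx ⊢
          rw [← hx.2]
          exact ⟨rfl, rfl⟩
      _ = 9 * (W * ρ ^ (2 * d0)) := by
          rw [Finset.sum_const, Finset.card_product, pj_card_Icc3, pj_card_Icc3, nsmul_eq_mul]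
          norm_num
  calc _ ≤ 9 * (W * ρ ^ (2 * d0)) := hleft
    _ = 18 * W ^ 3 * ρ ^ d0 * ((2 * W ^ 2)⁻¹ * ρ ^ d0) := by
        rw [two_mul, Real.rpow_add hρ]
        field_simp
        norm_num
    _ ≤ _ := by gcongr

/-- LEAF `L-PJ-A4` **mass after the two restrictions.**
PLAN.  `G1 = G.filter (pjHv p.1)`: `∑_G - ∑_{G1} = ∑_{p ∈ G, ¬Hv p.1} μ ν ≤ (∑_{¬Hv} μ)(∑ ν) ≤ (2W)⁻¹` (`pj_pl_light`; embed `G ⊆ univ ×ˢ univ`, `Finset.sum_product`, `Finset.sum_mul_sum`), so `∑_{G1} ≥ (2W)⁻¹`;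
`pj_pigeon G1 (μ ν) (a0 ∘ fst) (a1 ∘ fst) R`. -/
theorem pj_pl_mass {X T : Type} [Fintype X] [Fintype T] {ρ W R d0 γ : ℝ} {μ : X → ℝ} {ν : T → ℝ} {a0 a1 : X → ℝ} {sl : T → ℝ}
    {G : Finset (X × T)} (h : PjPl ρ W R d0 γ μ ν a0 a1 sl G) (hρ : 0 < ρ) (hW : 1 ≤ W) (hR : 1 ≤ R) :
    ∃ p0 p1 : ℤ, (2 * W * (2 * R + 2) ^ 2)⁻¹ ≤ ∑ p ∈ G with pjIn ρ W d0 μ a0 a1 p0 p1 p.1, μ p.1 * ν p.2 := by
  have hW0 : 0 < W := by linarith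
  have hf : ∀ p : X × T, 0 ≤ μ p.1 * ν p.2 := fun p => mul_nonneg (h.μ0 _) (h.ν0 _)
  have hsplit := Finset.sum_filter_add_sum_filter_not G (fun p : X × T => pjHv ρ W d0 μ a0 p.1) (fun p => μ p.1 * ν p.2)
  have hlight : ∑ p ∈ G with ¬ pjHv ρ W d0 μ a0 p.1, μ p.1 * ν p.2 ≤ (2 * W)⁻¹ := by
    calc ∑ p ∈ G with ¬ pjHv ρ W d0 μ a0 p.1, μ p.1 * ν p.2
        ≤ ∑ p ∈ (univ.filter fun x => ¬ pjHv ρ W d0 μ a0 x) ×ˢ (univ : Finset T), μ p.1 * ν p.2 := by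
          refine Finset.sum_le_sum_of_subset_of_nonneg ?_ fun p _ _ => hf p
          intro p hp
          simp only [Finset.mem_filter, Finset.mem_product, Finset.mem_univ, true_and, and_true] at hp ⊢
          exact hp.2
      _ = (∑ x with ¬ pjHv ρ W d0 μ a0 x, μ x) * ∑ b, ν b := by
          rw [Finset.sum_product, Finset.sum_mul_sum]
      _ ≤ (2 * W)⁻¹ * 1 := by
          refine mul_le_mul (pj_pl_light h hρ hW) h.ν1 (Finset.sum_nonneg fun b _ => h.ν0 b) (by positivity)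
      _ = _ := mul_one _
  have hG1 : (2 * W)⁻¹ ≤ ∑ p ∈ G with pjHv ρ W d0 μ a0 p.1, μ p.1 * ν p.2 := by
    have h1 := h.mass
    have h2 : W⁻¹ = (2 * W)⁻¹ + (2 * W)⁻¹ := by
      field_simp
      norm_num
    linarith
  obtain ⟨p0, p1, hp⟩ := pj_pigeon (G.filter fun p : X × T => pjHv ρ W d0 μ a0 p.1) (fun p => μ p.1 * ν p.2) (fun p => a0 p.1) (fun p => a1 p.1) R
    (fun p _ => hf p) (fun p _ => h.ha0 p.1) (fun p _ => h.ha1 p.1)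
  refine ⟨p0, p1, ?_⟩
  have e : (G.filter fun p : X × T => pjHv ρ W d0 μ a0 p.1).filter (fun p => ⌊a0 p.1⌋ = p0 ∧ ⌊a1 p.1⌋ = p1)
      = G.filter fun p : X × T => pjIn ρ W d0 μ a0 a1 p0 p1 p.1 := by
    ext p
    simp only [Finset.mem_filter, and_assoc]
    exact Iff.rfl
  rw [e] at hp
  have hR2 : 0 < (2 * R + 2) ^ 2 := by positivity
  rw [mul_inv, ← div_eq_mul_inv, div_le_iff₀ hR2]
  calc (2 * W)⁻¹ ≤ _ := hG1.trans hp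
    _ = _ := mul_comm _ _

/-- LEAF `L-PJ-A5` **ASSEMBLY** (exit of this file).
PLAN.  `obtain ⟨χ, hχ, ρ₁, hρ₁, H⟩ := ex_W1 d0 γ d0 2 ..` (`d0 < min 1 (d0+γ)`); answer `χ`, `min ρ₁ 1`.   Given `h : PjPl ..`: `p0, p1` from `pj_pl_mass`; apply `H ρ .. X T X μ' ν pt' sl G' M μ xr` with
`μ' x = if pjIn x then μ x else 0`, `pt' x = if pjIn x then (a0 x - p0, a1 x - p1) else (0,0)`, `G' = G.filter (pjIn p.1)`, `M = ⌊W ρ^(-d0)⌋₊`, `xr j = a0 j - p0`.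
`ExTest ρ χ 2 γ μ' ν pt' sl G' M`: `μ' ≤ μ`; `0 ≤ a0 x - p0 ≤ 1` on `pjIn` (`Int.floor_le`, `Int.lt_floor_add_one`); `|sl| ≤ 1 ≤ 2`; `KfFrost` with `W ≤ ρ^(-χ)`; mass: `ρ^χ = (ρ^(-χ))⁻¹ ≤ (2W(2R+2)²)⁻¹`, and `μ' = μ` on `G'`;
`cov b = (H_b).image fun k => k ρ - (p1 - sl b p0)` (`h.proj b`, `Classical.choose`), `card ≤ M` by `Nat.le_floor`, `Finset.card_image_le`; `kfProj (sl b) (pt' x) = (a1 x - sl b a0 x) - (p1 - sl b p0)`.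
`KfFrost μ xr (ρ^(-χ)) d0 ρ`: `h.marg` at `z + p0` (`Real.dist_eq`).   `hU`: `pj_pl_hU` and `18 W³ ρ^d0 ≤ ρ^(-χ) ρ^d0 = ρ^(d0-χ)`.
Conclusion `ρ^(-d0-χ) ≤ M ≤ W ρ^(-d0) < ρ^(-χ) ρ^(-d0)`: contradiction.   All four numeric facts follow from `hsm` because `W, R ≥ 1`. -/
theorem pj_planar (d0 γ : ℝ) (hd0 : 0 < d0) (hd1 : d0 < 1) (hγ : 0 < γ) :
    ∃ χ : ℝ, 0 < χ ∧ ∃ ρ₁ : ℝ, 0 < ρ₁ ∧ ∀ ρ : ℝ, 0 < ρ → ρ < ρ₁ → ∀ W R : ℝ, 1 ≤ W → 1 ≤ R →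
      18 * W ^ 3 * (2 * R + 2) ^ 2 < ρ ^ (-χ) →
      ∀ (X T : Type) [Fintype X] [Fintype T] (μ : X → ℝ) (ν : T → ℝ) (a0 a1 : X → ℝ) (sl : T → ℝ) (G : Finset (X × T)),
        ¬ PjPl ρ W R d0 γ μ ν a0 a1 sl G := by
  obtain ⟨χ, hχ, ρ₁, hρ₁, H⟩ := ex_W1 d0 γ d0 2 hd0 hγ hd0.le (lt_min hd1 (by linarith)) (by norm_num)
  refine ⟨χ, hχ, ρ₁, hρ₁, fun ρ hρ hρ1 W R hW hR hsm X T _ _ μ ν a0 a1 sl G h => ?_⟩
  obtain ⟨p0, p1, hm⟩ := pj_pl_mass h hρ hW hR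
  have hW0 : 0 < W := by linarith
  have hK0 : 0 < ρ ^ (-χ) := Real.rpow_pos_of_pos hρ _
  have hR2 : (16 : ℝ) ≤ (2 * R + 2) ^ 2 := by nlinarith
  have hW2 : 1 ≤ W ^ 2 := one_le_pow₀ hW
  have hW3 : W ≤ W ^ 3 := by nlinarith
  have hW31 : 1 ≤ W ^ 3 := one_le_pow₀ hW
  have n3 : 18 * W ^ 3 ≤ ρ ^ (-χ) := by nlinarith
  have n1 : W < ρ ^ (-χ) := by nlinarith
  have n2 : 2 * W * (2 * R + 2) ^ 2 ≤ ρ ^ (-χ) := by
    have : 2 * W * (2 * R + 2) ^ 2 ≤ 18 * W ^ 3 * (2 * R + 2) ^ 2 := by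
      have : 2 * W ≤ 18 * W ^ 3 := by linarith
      gcongr
    linarith
  choose Hb hHc hHm using h.proj
  have hfl0 : ∀ x, pjIn ρ W d0 μ a0 a1 p0 p1 x → 0 ≤ a0 x - p0 ∧ a0 x - p0 ≤ 1 := by
    intro x hx
    have e : ⌊a0 x⌋ = p0 := hx.2.1
    have h1 := Int.floor_le (a0 x)
    have h2 := Int.lt_floor_add_one (a0 x)
    rw [e] at h1 h2
    constructor <;> linarith
  have hfl1 : ∀ x, pjIn ρ W d0 μ a0 a1 p0 p1 x → 0 ≤ a1 x - p1 ∧ a1 x - p1 ≤ 1 := by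
    intro x hx
    have e : ⌊a1 x⌋ = p1 := hx.2.2
    have h1 := Int.floor_le (a1 x)
    have h2 := Int.lt_floor_add_one (a1 x)
    rw [e] at h1 h2
    constructor <;> linarith
  have hMW : 0 ≤ W * ρ ^ (-d0) := by positivity
  have hT : ExTest ρ χ 2 γ (fun x => if pjIn ρ W d0 μ a0 a1 p0 p1 x then μ x else 0) ν
      (fun x => if pjIn ρ W d0 μ a0 a1 p0 p1 x then ((a0 x - p0, a1 x - p1) : ℝ × ℝ) else (0, 0)) sl
      (G.filter fun p : X × T => pjIn ρ W d0 μ a0 a1 p0 p1 p.1) ⌊W * ρ ^ (-d0)⌋₊ := by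
    refine ⟨?_, h.ν0, ?_, h.ν1, ?_, ?_, ?_, ?_, fun b => (Hb b).image fun k : ℤ => (k : ℝ) * ρ - (p1 - sl b * p0), ?_, ?_⟩
    · intro x
      simp only []
      split_ifs
      · exact h.μ0 x
      · exact le_rfl
    · refine le_trans (Finset.sum_le_sum fun x _ => ?_) h.μ1
      split_ifs
      · exact le_rfl
      · exact h.μ0 x
    · intro x
      simp only []
      split_ifs with hx
      · obtain ⟨b1, b2⟩ := hfl0 x hx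
        obtain ⟨b3, b4⟩ := hfl1 x hx
        simp only []
        rw [abs_of_nonneg b1, abs_of_nonneg b3]
        constructor <;> linarith
      · simp
    · intro b
      exact (h.hsl b).trans (by norm_num)
    · intro z r hr hr1
      refine (h.slope z r hr hr1).trans ?_
      have : 0 ≤ r ^ γ := Real.rpow_nonneg (hρ.le.trans hr) _
      gcongr
    · have e1 : ρ ^ χ = (ρ ^ (-χ))⁻¹ := by rw [Real.rpow_neg hρ.le, inv_inv]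
      rw [e1]
      refine (inv_anti₀ (by positivity) n2).trans (hm.trans (le_of_eq ?_))
      refine Finset.sum_congr rfl fun p hp => ?_
      simp only [if_pos (Finset.mem_filter.1 hp).2]
    · intro b
      refine Finset.card_image_le.trans (Nat.le_floor (hHc b))
    · rintro b t ⟨x, hx, rfl⟩
      obtain ⟨hxG, hxI⟩ := Finset.mem_filter.1 hx
      refine ⟨_, Finset.mem_image_of_mem _ (hHm b x hxG), ?_⟩
      simp only [] at hxI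
      simp only [if_pos hxI, kfProj]
      have h1 := Int.floor_le ((a1 x - sl b * a0 x) / ρ)
      have h2 := Int.lt_floor_add_one ((a1 x - sl b * a0 x) / ρ)
      rw [le_div_iff₀ hρ] at h1
      rw [div_lt_iff₀ hρ] at h2
      constructor <;> linarith
  have hF : KfFrost μ (fun j => a0 j - p0) (ρ ^ (-χ)) d0 ρ := by
    intro z r hr hr1
    have h1 := h.marg (z + p0) r hr hr1
    have e : (univ.filter fun i => dist (a0 i - p0) z ≤ r) = univ.filter fun i => dist (a0 i) (z + p0) ≤ r := by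
      refine Finset.filter_congr fun i _ => ?_
      rw [Real.dist_eq, Real.dist_eq]
      have : a0 i - p0 - z = a0 i - (z + p0) := by ring
      rw [this]
    rw [e]
    refine h1.trans ?_
    have : 0 ≤ r ^ d0 := Real.rpow_nonneg (hρ.le.trans hr) _
    gcongr
  have hU : ∀ z : ℝ × ℝ, ∑ x with dist (if pjIn ρ W d0 μ a0 a1 p0 p1 x then ((a0 x - p0, a1 x - p1) : ℝ × ℝ) else (0, 0)) z ≤ ρ,
        (if pjIn ρ W d0 μ a0 a1 p0 p1 x then μ x else 0) ≤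
      ρ ^ (d0 - χ) * ∑ j with dist (a0 j - p0) z.1 ≤ 2 * ρ, μ j := by
    intro z
    refine (pj_pl_hU h hρ hW p0 p1 z).trans ?_
    have h0 : 0 ≤ ∑ j with dist (a0 j - p0) z.1 ≤ 2 * ρ, μ j := Finset.sum_nonneg fun j _ => h.μ0 j
    have e : ρ ^ (d0 - χ) = ρ ^ (-χ) * ρ ^ d0 := by
      rw [← Real.rpow_add hρ]
      congr 1
      ring
    rw [e]
    have : 0 ≤ ρ ^ d0 := Real.rpow_nonneg hρ.le _
    gcongr
  have hfin := H ρ hρ hρ1 X T X _ ν _ sl _ _ μ (fun j => a0 j - p0) hT h.μ0 hF hU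
  have h1 : ((⌊W * ρ ^ (-d0)⌋₊ : ℕ) : ℝ) ≤ W * ρ ^ (-d0) := Nat.floor_le hMW
  have e : ρ ^ (-d0 - χ) = ρ ^ (-χ) * ρ ^ (-d0) := by
    rw [← Real.rpow_add hρ]
    congr 1
    ring
  have h2 : W * ρ ^ (-d0) < ρ ^ (-χ) * ρ ^ (-d0) := mul_lt_mul_of_pos_right n1 (Real.rpow_pos_of_pos hρ _)
  rw [e] at hfin
  linarith

/-- monotonicity in the losses -/
theorem PjPl.mono {X T : Type} [Fintype X] [Fintype T] {ρ W R W' R' d0 γ : ℝ} {μ : X → ℝ} {ν : T → ℝ} {a0 a1 : X → ℝ} {sl : T → ℝ}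
    {G : Finset (X × T)} (h : PjPl ρ W R d0 γ μ ν a0 a1 sl G) (hρ : 0 < ρ) (hW0 : 0 < W) (hW : W ≤ W') (hR : R ≤ R') :
    PjPl ρ W' R' d0 γ μ ν a0 a1 sl G := by
  have hp : ∀ e : ℝ, 0 ≤ ρ ^ e := fun e => (Real.rpow_pos_of_pos hρ e).le
  refine ⟨h.μ0, h.ν0, h.μ1, h.ν1, fun x => (h.ha0 x).trans hR, fun x => (h.ha1 x).trans hR, h.hsl, ?_, ?_, ?_, ?_, ?_, ?_⟩
  · intro z r hr hr1
    exact (h.slope z r hr hr1).trans (mul_le_mul_of_nonneg_right hW (Real.rpow_nonneg (hρ.le.trans hr) _))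
  · intro z r hr hr1
    exact (h.marg z r hr hr1).trans (mul_le_mul_of_nonneg_right hW (Real.rpow_nonneg (hρ.le.trans hr) _))
  · intro k0 k1
    exact (h.cell k0 k1).trans (mul_le_mul_of_nonneg_right hW (hp _))
  · obtain ⟨H0, h1, h2⟩ := h.lab
    exact ⟨H0, h1.trans (mul_le_mul_of_nonneg_right hW (hp _)), h2⟩
  · intro b
    obtain ⟨H, h1, h2⟩ := h.proj b
    exact ⟨H, h1.trans (mul_le_mul_of_nonneg_right hW (hp _)), h2⟩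
  · exact (inv_anti₀ hW0 hW).trans h.mass

end Claimed.Agent.R257
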