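import Claimed.Agent.R257.Proj.Defs

/-!
# ROW 257, package FR3, unit PROJ, file 5: HEAVY LABELS, MARGINALS, SLOPES      (architect helper121)

PAPER-FREE.  `D : PjDual (n+2) A L u c` is a basis made of directions of tags.  Everything here is one application of `hF.tube`, `hF.frost` (`kf_frost_ext`), `hF.strip`.
-/

set_option autoImplicit false

namespace Claimed.Agent.R257

open Finset Matrix Claimed.Agent.RW
open scoped Classical

/-- LEAF `L-PJ-H0` **heavy slices on `Fin (n+2) → ℤ`, any slicing coordinate `j`.**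
PLAN.  `e y = (y j, fun i => y (j.succAbove i))` is injective (`Fin.forall_iff_succAbove j` / `Fin.eq_self_or_eq_succAbove`), `B' = B.image e`; apply `pj_heavy n B' P ϑ`.
`B'.image Prod.snd` is the image of `B.image (pjDrop j)` under `y ↦ (e y).2`; `B'.image (p.1, pjDrop i p.2)` is the image of `B.image (pjDrop (j.succAbove i))` under `e`
(`Function.update` at `j.succAbove i`: `Fin.succAbove_right_inj`, `Fin.succAbove_ne`), so `Finset.card_image_le`.   `(B.filter (y j ∉ H)).card = (B'.filter (p.1 ∉ H)).card` (`Finset.card_image_of_injOn`, `Finset.filter_image`). -/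
theorem pj_heavy_fin (n : ℕ) (B : Finset (Fin (n + 2) → ℤ)) (j : Fin (n + 2)) (P ϑ : ℝ) (hP : 0 ≤ P) (hϑ : 0 < ϑ)
    (h : ∀ m, ((B.image (pjDrop m)).card : ℝ) ≤ P ^ (n + 1)) :
    ∃ H : Finset ℤ, (H.card : ℝ) * ϑ ^ (n + 1) ≤ P ^ (n + 2) ∧ ((B.filter fun y => y j ∉ H).card : ℝ) ≤ ϑ * P ^ (n + 1) := by
  obtain ⟨e, he⟩ : ∃ e : (Fin (n + 2) → ℤ) → ℤ × (Fin (n + 1) → ℤ), e = fun y => (y j, fun i => y (j.succAbove i)) := ⟨_, rfl⟩
  have hinj : Function.Injective e := by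
    intro y y' hyy
    rw [he] at hyy
    simp only [Prod.mk.injEq] at hyy
    funext l
    rcases Fin.eq_self_or_eq_succAbove j l with rfl | ⟨i, rfl⟩
    · exact hyy.1
    · exact congrFun hyy.2 i
  have h0 : (((B.image e).image Prod.snd).card : ℝ) ≤ P ^ (n + 1) := by
    refine le_trans ?_ (h j)
    have : (B.image e).image Prod.snd = (B.image (pjDrop j)).image fun y => (e y).2 := by
      rw [Finset.image_image, Finset.image_image]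
      refine Finset.image_congr fun y _ => ?_
      rw [he]
      funext i
      simp only [Function.comp, pjDrop]
      rw [Function.update_of_ne (Fin.succAbove_ne j i)]
    rw [this]
    exact_mod_cast Finset.card_image_le
  have hi : ∀ i, (((B.image e).image fun p => (p.1, pjDrop i p.2)).card : ℝ) ≤ P ^ (n + 1) := by
    intro i
    refine le_trans ?_ (h (j.succAbove i))
    have : ((B.image e).image fun p => (p.1, pjDrop i p.2)) = (B.image (pjDrop (j.succAbove i))).image e := by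
      rw [Finset.image_image, Finset.image_image]
      refine Finset.image_congr fun y _ => ?_
      rw [he]
      simp only [Function.comp, pjDrop]
      rw [Function.update_of_ne (Fin.succAbove_ne j i).symm]
      congr 1
      funext k
      by_cases hk : k = i
      · subst hk
        simp
      · rw [Function.update_of_ne hk, Function.update_of_ne (fun h' => hk (Fin.succAbove_right_injective h'))]
    rw [this]
    exact_mod_cast Finset.card_image_le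
  obtain ⟨H, hH1, hH2⟩ := pj_heavy n (B.image e) P ϑ hP hϑ h0 hi
  refine ⟨H, hH1, le_trans (le_of_eq ?_) hH2⟩
  rw [Finset.filter_image, Finset.card_image_of_injective _ hinj]
  congr 2
  rw [he]

theorem pj_floor_close {a b : ℝ} {w : ℕ} (h : |a - b| ≤ w) : ⌊a⌋ ∈ Finset.Icc (⌊b⌋ - (w : ℤ)) (⌊b⌋ + (w : ℤ)) := by
  rw [abs_le] at h
  rw [Finset.mem_Icc]
  constructor
  · have : ⌊b - (w : ℝ)⌋ ≤ ⌊a⌋ := Int.floor_le_floor (by linarith [h.1])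
    rwa [Int.floor_sub_natCast] at this
  · have : ⌊a⌋ ≤ ⌊b + (w : ℝ)⌋ := Int.floor_le_floor (by linarith [h.2])
    rwa [Int.floor_add_natCast] at this

/-- LEAF `L-PJ-H1` **the labels without the coordinate `m` are counted by the tubes in the direction `u m`.**
PLAN.  `w = ⌈L⌉₊`.  For `x` in the tube of `z`: `e = pt x - z - t • u m`, `|e l| ≤ ρ`; for `i ≠ m`: `c i·pt x = c i·z + c i·e` (`D.bi`), `|c i·e| ≤ L ρ` (`D.coord_le`), hence `⌊c i·pt x/ρ⌋ - ⌊c i·z/ρ⌋ ∈ [-w, w]`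
(`Int.floor_le`, `Int.lt_floor_add_one`, `Nat.le_ceil`).  So the image lies in `cov.biUnion fun z => Fintype.piFinset fun i => if i = m then {0} else Finset.Icc (⌊c i·z/ρ⌋ - w) (⌊c i·z/ρ⌋ + w)`;
`Finset.card_biUnion_le`, `Fintype.card_piFinset`, `Int.card_Icc`; the product has one factor `1` and `n+1` factors `2w+1 ≤ 2L+3` (`Finset.prod_ite`/`Fin.prod_univ_succAbove _ m`). -/
theorem pj_proj_count (n : ℕ) {A L ρ : ℝ} {u c : Fin (n + 2) → Fin (n + 2) → ℝ} (D : PjDual (n + 2) A L u c) (hρ : 0 < ρ) (hL : 0 ≤ L)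
    (m : Fin (n + 2)) {X : Type} (𝒢 : Finset X) (pt : X → Fin (n + 2) → ℝ) (cov : Finset (Fin (n + 2) → ℝ))
    (h : ∀ x ∈ 𝒢, ∃ z ∈ cov, ∃ t : ℝ, ∀ l, |pt x l - z l - t * u m l| ≤ ρ) :
    (((𝒢.image fun x => pjLab ρ c (pt x)).image (pjDrop m)).card : ℝ) ≤ cov.card * (2 * L + 3) ^ (n + 1) := by
  obtain ⟨w, hw⟩ : ∃ w : ℕ, w = ⌈L⌉₊ := ⟨_, rfl⟩
  have hw1 : L ≤ w := by rw [hw]; exact Nat.le_ceil L
  have hw2 : (w : ℝ) < L + 1 := by rw [hw]; exact Nat.ceil_lt_add_one hL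
  obtain ⟨box, hbox⟩ : ∃ box : (Fin (n + 2) → ℝ) → Finset (Fin (n + 2) → ℤ), box = fun z => Fintype.piFinset fun i =>
      if i = m then ({0} : Finset ℤ) else Finset.Icc (⌊(c i ⬝ᵥ z) / ρ⌋ - (w : ℤ)) (⌊(c i ⬝ᵥ z) / ρ⌋ + (w : ℤ)) := ⟨_, rfl⟩
  have hsub : ((𝒢.image fun x => pjLab ρ c (pt x)).image (pjDrop m)) ⊆ cov.biUnion box := by
    intro y hy
    rw [Finset.image_image, Finset.mem_image] at hy
    obtain ⟨x, hx, rfl⟩ := hy
    obtain ⟨z, hz, t, ht⟩ := h x hx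
    rw [Finset.mem_biUnion]
    refine ⟨z, hz, ?_⟩
    rw [hbox, Fintype.mem_piFinset]
    intro i
    by_cases hi : i = m
    · subst hi
      simp [pjDrop]
    · rw [if_neg hi]
      simp only [Function.comp, pjDrop]
      rw [Function.update_of_ne hi]
      unfold pjLab
      apply pj_floor_close
      obtain ⟨e, he⟩ : ∃ e : Fin (n + 2) → ℝ, e = pt x - z - t • u m := ⟨_, rfl⟩
      have hel : ∀ l, |e l| ≤ ρ := by
        intro l
        rw [he]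
        simpa using ht l
      have hce : |c i ⬝ᵥ e| ≤ L * ρ := D.coord_le i e ρ hρ.le hel
      have hdot : c i ⬝ᵥ e = c i ⬝ᵥ pt x - c i ⬝ᵥ z := by
        rw [he, dotProduct_sub, dotProduct_sub, dotProduct_smul, D.bi i m, if_neg hi, smul_zero, sub_zero]
      rw [← sub_div, ← hdot, abs_div, abs_of_pos hρ, div_le_iff₀ hρ]
      exact hce.trans (mul_le_mul_of_nonneg_right hw1 hρ.le)
  have hcardbox : ∀ z, (box z).card = (2 * w + 1) ^ (n + 1) := by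
    intro z
    rw [hbox, Fintype.card_piFinset, Fin.prod_univ_succAbove _ m]
    simp only [if_true, Finset.card_singleton, one_mul, Fin.succAbove_ne, if_false, Int.card_Icc]
    have e : ∀ x : Fin (n + 1), (⌊c (m.succAbove x) ⬝ᵥ z / ρ⌋ + (w : ℤ) + 1 - (⌊c (m.succAbove x) ⬝ᵥ z / ρ⌋ - (w : ℤ))).toNat
        = 2 * w + 1 := by
      intro x
      omega
    simp only [e]
    rw [Finset.prod_const, Finset.card_univ, Fintype.card_fin]
  have h1 : ((𝒢.image fun x => pjLab ρ c (pt x)).image (pjDrop m)).card ≤ cov.card * (2 * w + 1) ^ (n + 1) := by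
    refine (Finset.card_le_card hsub).trans ?_
    refine (Finset.card_biUnion_le).trans ?_
    simp only [hcardbox, Finset.sum_const, smul_eq_mul, le_refl]
  have h2 : (((𝒢.image fun x => pjLab ρ c (pt x)).image (pjDrop m)).card : ℝ) ≤ (cov.card : ℝ) * (2 * (w : ℝ) + 1) ^ (n + 1) := by
    exact_mod_cast h1
  refine h2.trans ?_
  have h3 : 2 * (w : ℝ) + 1 ≤ 2 * L + 3 := by linarith
  gcongr

/-- LEAF `L-PJ-H2` **mass of a cell.**
PLAN.  Empty cell: `0 ≤`.  Else fix `y` in the cell; for `x` in the cell `|c i·(pt x - pt y)| ≤ ρ` (equal floors: `Int.floor_le`, `Int.lt_floor_add_one`; `dotProduct_sub`), `D.ball`: `|pt x l - pt y l| ≤ (n+2)(ρ A)`,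
`dist_pi_le_iff`, `Real.dist_eq`;  `kf_frost_ext hF.μ0 hF.μ1 hK _ hF.frost (pt y) ((n+2) A ρ)` (radius `≥ ρ`). -/
theorem pj_cell_mass (n : ℕ) {X T : Type} [Fintype X] [Fintype T] (F : PjCfg (n + 2) X T) {ρ K A d0 γ L : ℝ} (hF : F.Ok ρ K A d0 γ)
    (hK : 1 ≤ K) (hA : 1 ≤ A) (hρ : 0 < ρ) (hd0 : 0 ≤ d0) {u c : Fin (n + 2) → Fin (n + 2) → ℝ} (D : PjDual (n + 2) A L u c)
    (ℓ : Fin (n + 2) → ℤ) :
    ∑ x with pjLab ρ c (F.pt x) = ℓ, F.μ x ≤ K * (((n + 2 : ℕ) : ℝ) * A * ρ) ^ (((n + 2 : ℕ) : ℝ) * d0) := by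
  have hA0 : 0 < A := lt_of_lt_of_le one_pos hA
  have hK0 : 0 < K := lt_of_lt_of_le one_pos hK
  rcases (Finset.univ.filter fun x => pjLab ρ c (F.pt x) = ℓ).eq_empty_or_nonempty with he | ⟨y, hy⟩
  · rw [he, Finset.sum_empty]
    positivity
  · have hy' : pjLab ρ c (F.pt y) = ℓ := (Finset.mem_filter.1 hy).2
    have hn2 : (1 : ℝ) ≤ ((n + 2 : ℕ) : ℝ) := by
      have : (1 : ℕ) ≤ n + 2 := by omega
      exact_mod_cast this
    have hrad : ρ ≤ ((n + 2 : ℕ) : ℝ) * A * ρ := by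
      have : 1 ≤ ((n + 2 : ℕ) : ℝ) * A := by nlinarith
      nlinarith
    refine le_trans ?_ (kf_frost_ext hF.μ0 hF.μ1 hK (by positivity) hF.frost (F.pt y) (((n + 2 : ℕ) : ℝ) * A * ρ) hrad)
    refine Finset.sum_le_sum_of_subset_of_nonneg ?_ fun x _ _ => hF.μ0 x
    intro x hx
    have hx' : pjLab ρ c (F.pt x) = ℓ := (Finset.mem_filter.1 hx).2
    refine Finset.mem_filter.2 ⟨Finset.mem_univ _, ?_⟩
    rw [dist_pi_le_iff (by positivity)]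
    intro l
    rw [Real.dist_eq]
    have hc : ∀ i, |c i ⬝ᵥ (F.pt x - F.pt y)| ≤ ρ := by
      intro i
      have h1 : ⌊(c i ⬝ᵥ F.pt x) / ρ⌋ = ⌊(c i ⬝ᵥ F.pt y) / ρ⌋ := by
        have := congrFun (hx'.trans hy'.symm) i
        exact this
      have h2 := Int.abs_sub_lt_one_of_floor_eq_floor h1
      rw [← sub_div, abs_div, abs_of_pos hρ, div_lt_one hρ] at h2
      rw [dotProduct_sub]
      exact h2.le
    have := D.ball (F.pt x - F.pt y) ρ hc l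
    rw [Pi.sub_apply] at this
    refine this.trans (le_of_eq ?_)
    ring

/-- LEAF `L-PJ-H3` **HEAVY LABELS** (exit 1).
PLAN.  `𝒢 = univ.filter (∀ i, (x, β i) ∈ S)`, `B = 𝒢.image (pjLab ρ c ∘ pt)`, `P = K (2L+3) ρ^(-d0)`, `ϑ = ρ^(-d0)/K2`.   `hF.tube (β m) ρ` + `pj_proj_count`: `|π_m B| ≤ K ρ^(-(n+1) d0) (2L+3)^(n+1) ≤ P^(n+1)`
(`K ≤ K^(n+1)`; `(ρ^(-d0))^(n+1) = ρ^(-((n+2 : ℕ) - 1) d0)`: `Real.rpow_natCast`, `Real.rpow_mul`, `push_cast`).   `pj_heavy_fin` gives `H`.   `|H| ≤ P^(n+2)/ϑ^(n+1)`: algebra.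
Light mass: `∑_{x ∈ 𝒢, lab_j ∉ H} μ = ∑_{ℓ ∈ B, ℓ j ∉ H} ∑_{x ∈ 𝒢, lab x = ℓ} μ` (`Finset.sum_fiberwise_of_maps_to`) `≤ (ϑ P^(n+1)) (K ((n+2) A ρ)^α)` (`pj_cell_mass`, `Finset.sum_le_card_nsmul`), and
`ρ^(-(n+2) d0) ρ^((n+2) d0) = 1` (`Real.mul_rpow`, `Real.rpow_add`). -/
theorem pj_slices (n : ℕ) {X T : Type} [Fintype X] [Fintype T] (F : PjCfg (n + 2) X T) {ρ K A d0 γ L K2 : ℝ} (hF : F.Ok ρ K A d0 γ)
    (hK : 1 ≤ K) (hA : 1 ≤ A) (hρ : 0 < ρ) (hρ1 : ρ ≤ 1) (hd0 : 0 ≤ d0) (hL : 1 ≤ L) (hK2 : 0 < K2) (β : Fin (n + 2) → T)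
    {c : Fin (n + 2) → Fin (n + 2) → ℝ} (D : PjDual (n + 2) A L (fun i => F.dir (β i)) c) (j : Fin (n + 2)) :
    ∃ H : Finset ℤ, (H.card : ℝ) ≤ (K * (2 * L + 3)) ^ (n + 2) * K2 ^ (n + 1) * ρ ^ (-d0) ∧
      ∑ x with (∀ i, (x, β i) ∈ F.S) ∧ ⌊(c j ⬝ᵥ F.pt x) / ρ⌋ ∉ H, F.μ x ≤
        (K * (2 * L + 3)) ^ (n + 1) * (K * (((n + 2 : ℕ) : ℝ) * A) ^ (((n + 2 : ℕ) : ℝ) * d0)) / K2 := by
  obtain ⟨R, hR⟩ : ∃ R : ℝ, R = ρ ^ (-d0) := ⟨_, rfl⟩
  have hR0 : 0 < R := by rw [hR]; exact Real.rpow_pos_of_pos hρ _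
  obtain ⟨Q, hQ⟩ : ∃ Q : ℝ, Q = K * (2 * L + 3) := ⟨_, rfl⟩
  have hQ0 : 0 < Q := by rw [hQ]; positivity
  have hK0 : 0 < K := by linarith
  have hRpow : ∀ k : ℕ, R ^ k = ρ ^ (-((k : ℝ) * d0)) := by
    intro k
    rw [hR, ← Real.rpow_natCast, ← Real.rpow_mul hρ.le]
    congr 1
    ring
  -- the projections of the label set
  have hproj : ∀ m, ((((univ.filter fun x => ∀ i, (x, β i) ∈ F.S).image fun x => pjLab ρ c (F.pt x)).image (pjDrop m)).card : ℝ)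
      ≤ (Q * R) ^ (n + 1) := by
    intro m
    obtain ⟨cov, hcard, hcov⟩ := hF.tube (β m) ρ le_rfl hρ1
    have h1 := pj_proj_count n D hρ (by linarith) m (univ.filter fun x => ∀ i, (x, β i) ∈ F.S) F.pt cov
      (fun x hx => hcov x ((Finset.mem_filter.1 hx).2 m))
    refine h1.trans ?_
    have e1 : ρ ^ (-((((n + 2 : ℕ) : ℝ) - 1) * d0)) = R ^ (n + 1) := by
      rw [hRpow]
      congr 2
      push_cast
      ring
    rw [e1] at hcard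
    have e2 : K ≤ K ^ (n + 1) := le_self_pow₀ hK (by omega)
    calc (cov.card : ℝ) * (2 * L + 3) ^ (n + 1) ≤ (K ^ (n + 1) * R ^ (n + 1)) * (2 * L + 3) ^ (n + 1) := by
          gcongr
          exact hcard.trans (by gcongr)
      _ = (Q * R) ^ (n + 1) := by rw [hQ, mul_pow, mul_pow]; ring
  obtain ⟨H, hH1, hH2⟩ := pj_heavy_fin n ((univ.filter fun x => ∀ i, (x, β i) ∈ F.S).image fun x => pjLab ρ c (F.pt x)) j
    (Q * R) (R / K2) (by positivity) (by positivity) hproj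
  refine ⟨H, ?_, ?_⟩
  · rw [← hQ, ← hR]
    have e1 : (R / K2) ^ (n + 1) = R ^ (n + 1) / K2 ^ (n + 1) := div_pow _ _ _
    rw [e1, mul_div_assoc', div_le_iff₀ (by positivity)] at hH1
    have e2 : (Q * R) ^ (n + 2) * K2 ^ (n + 1) = (Q ^ (n + 2) * K2 ^ (n + 1) * R) * R ^ (n + 1) := by
      rw [mul_pow, pow_succ R (n + 1)]; ring
    rw [e2] at hH1
    exact le_of_mul_le_mul_right hH1 (by positivity)
  · have hmaps : ∀ x ∈ (univ.filter fun x => (∀ i, (x, β i) ∈ F.S) ∧ ⌊(c j ⬝ᵥ F.pt x) / ρ⌋ ∉ H),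
        pjLab ρ c (F.pt x) ∈ (((univ.filter fun x => ∀ i, (x, β i) ∈ F.S).image fun x => pjLab ρ c (F.pt x)).filter
          fun y => y j ∉ H) := by
      intro x hx
      obtain ⟨h1, h2⟩ := (Finset.mem_filter.1 hx).2
      exact Finset.mem_filter.2 ⟨Finset.mem_image.2 ⟨x, Finset.mem_filter.2 ⟨Finset.mem_univ _, h1⟩, rfl⟩, h2⟩
    rw [← Finset.sum_fiberwise_of_maps_to hmaps]
    have hone : ∀ ℓ ∈ (((univ.filter fun x => ∀ i, (x, β i) ∈ F.S).image fun x => pjLab ρ c (F.pt x)).filter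
          fun y => y j ∉ H),
        ∑ x ∈ (univ.filter fun x => (∀ i, (x, β i) ∈ F.S) ∧ ⌊(c j ⬝ᵥ F.pt x) / ρ⌋ ∉ H) with pjLab ρ c (F.pt x) = ℓ, F.μ x
          ≤ K * (((n + 2 : ℕ) : ℝ) * A * ρ) ^ (((n + 2 : ℕ) : ℝ) * d0) := by
      intro ℓ _
      refine le_trans ?_ (pj_cell_mass n F hF hK hA hρ hd0 D ℓ)
      refine Finset.sum_le_sum_of_subset_of_nonneg ?_ fun x _ _ => hF.μ0 x
      intro x hx
      exact Finset.mem_filter.2 ⟨Finset.mem_univ _, (Finset.mem_filter.1 hx).2⟩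
    refine (Finset.sum_le_card_nsmul _ _ _ hone).trans ?_
    rw [nsmul_eq_mul, Real.mul_rpow (by positivity) hρ.le, ← hQ]
    have hp1 : 0 ≤ (((n + 2 : ℕ) : ℝ) * A) ^ (((n + 2 : ℕ) : ℝ) * d0) := by positivity
    have hp2 : 0 < ρ ^ (((n + 2 : ℕ) : ℝ) * d0) := Real.rpow_pos_of_pos hρ _
    have e3 : R ^ (n + 2) * ρ ^ (((n + 2 : ℕ) : ℝ) * d0) = 1 := by
      rw [hRpow, ← Real.rpow_add hρ]
      simp
    calc _ ≤ (R / K2 * (Q * R) ^ (n + 1)) * (K * ((((n + 2 : ℕ) : ℝ) * A) ^ (((n + 2 : ℕ) : ℝ) * d0) * ρ ^ (((n + 2 : ℕ) : ℝ) * d0))) := by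
          gcongr
      _ = Q ^ (n + 1) * (K * (((n + 2 : ℕ) : ℝ) * A) ^ (((n + 2 : ℕ) : ℝ) * d0)) / K2 * (R ^ (n + 2) * ρ ^ (((n + 2 : ℕ) : ℝ) * d0)) := by
          rw [mul_pow, pow_succ R (n + 1)]; ring
      _ = _ := by rw [e3, mul_one]

/-- LEAF `L-PJ-H4` **the law of the coordinate `c j` on the neighbours of the tag `b`, `u j = dir b`, is Frostman `d0`** (exit 2).
PLAN.  `cov` from `hF.tube b r`.  `x` in the tube of `zc` and in the slab: `e = pt x - zc - t • u j`, `c j·pt x = c j·zc + t + c j·e` (`D.bi j j`), so `|t - t0| ≤ (1+L) r`, `t0 = z - c j·zc`, and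
`|pt x l - (zc + t0 • u j) l| ≤ (1+L) r A + r ≤ 3 L A r`.   `kf_frost_ext` at the radius `3 L A r ≥ ρ`: each tube contributes `≤ K (3LAr)^α`; union bound over `cov` (`Finset.sum_le_sum_of_subset_of_nonneg` into a `biUnion`,
`Finset.sum_biUnion_le`-style, or indicator sums);  `K r^(-(n+1) d0) K (3LA)^α r^((n+2) d0) = K² (3LA)^α r^d0`. -/
theorem pj_marg (n : ℕ) {X T : Type} [Fintype X] [Fintype T] (F : PjCfg (n + 2) X T) {ρ K A d0 γ L : ℝ} (hF : F.Ok ρ K A d0 γ)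
    (hK : 1 ≤ K) (hA : 1 ≤ A) (hρ : 0 < ρ) (hd0 : 0 ≤ d0) (hL : 1 ≤ L) {u c : Fin (n + 2) → Fin (n + 2) → ℝ}
    (D : PjDual (n + 2) A L u c) (j : Fin (n + 2)) (b : T) (hb : u j = F.dir b) (z r : ℝ) (hr : ρ ≤ r) (hr1 : r ≤ 1) :
    ∑ x with (x, b) ∈ F.S ∧ |c j ⬝ᵥ F.pt x - z| ≤ r, F.μ x ≤ K ^ 2 * (3 * L * A) ^ (((n + 2 : ℕ) : ℝ) * d0) * r ^ d0 := by
  have hr0 : 0 < r := hρ.trans_le hr
  have hLA : 1 ≤ L * A := by nlinarith
  have hα : 0 ≤ ((n + 2 : ℕ) : ℝ) * d0 := by positivity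
  obtain ⟨cov, hcard, hcov⟩ := hF.tube b r hr hr1
  -- every point of the slab lies in the ball attached to its tube
  have hball : ∀ x, (x, b) ∈ F.S → |c j ⬝ᵥ F.pt x - z| ≤ r → ∃ zc ∈ cov,
      dist (F.pt x) (zc + (z - c j ⬝ᵥ zc) • u j) ≤ 3 * L * A * r := by
    intro x hx hz
    obtain ⟨zc, hzc, t, ht⟩ := hcov x hx
    refine ⟨zc, hzc, ?_⟩
    obtain ⟨e, he⟩ : ∃ e : Fin (n + 2) → ℝ, e = F.pt x - zc - t • u j := ⟨_, rfl⟩
    have hel : ∀ l, |e l| ≤ r := by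
      intro l
      rw [he, hb]
      simpa using ht l
    have hce : |c j ⬝ᵥ e| ≤ L * r := D.coord_le j e r hr0.le hel
    have hdot : c j ⬝ᵥ e = c j ⬝ᵥ F.pt x - c j ⬝ᵥ zc - t := by
      rw [he, dotProduct_sub, dotProduct_sub, dotProduct_smul, D.bi j j, if_pos rfl, smul_eq_mul, mul_one]
    have ht0 : |t - (z - c j ⬝ᵥ zc)| ≤ (1 + L) * r := by
      have : t - (z - c j ⬝ᵥ zc) = (c j ⬝ᵥ F.pt x - z) - c j ⬝ᵥ e := by rw [hdot]; ring
      rw [this]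
      calc |(c j ⬝ᵥ F.pt x - z) - c j ⬝ᵥ e| ≤ |c j ⬝ᵥ F.pt x - z| + |c j ⬝ᵥ e| := abs_sub _ _
        _ ≤ (1 + L) * r := by linarith
    rw [dist_pi_le_iff (by positivity)]
    intro l
    rw [Real.dist_eq]
    have e1 : F.pt x l - (zc + (z - c j ⬝ᵥ zc) • u j) l = e l + (t - (z - c j ⬝ᵥ zc)) * u j l := by
      rw [he]
      simp only [Pi.add_apply, Pi.sub_apply, Pi.smul_apply, smul_eq_mul]
      ring
    rw [e1]
    have h2 : |(t - (z - c j ⬝ᵥ zc)) * u j l| ≤ (1 + L) * r * A := by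
      rw [abs_mul]
      exact mul_le_mul ht0 (D.hu j l) (abs_nonneg _) (by positivity)
    calc |e l + (t - (z - c j ⬝ᵥ zc)) * u j l| ≤ |e l| + |(t - (z - c j ⬝ᵥ zc)) * u j l| := abs_add_le _ _
      _ ≤ r + (1 + L) * r * A := add_le_add (hel l) h2
      _ ≤ 3 * L * A * r := by nlinarith [mul_pos hr0 (show 0 < A by linarith)]
  -- choose the tube
  have hch : ∀ x, ∃ zc, x ∈ (univ.filter fun x => (x, b) ∈ F.S ∧ |c j ⬝ᵥ F.pt x - z| ≤ r) →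
      zc ∈ cov ∧ dist (F.pt x) (zc + (z - c j ⬝ᵥ zc) • u j) ≤ 3 * L * A * r := by
    intro x
    by_cases hx : x ∈ (univ.filter fun x => (x, b) ∈ F.S ∧ |c j ⬝ᵥ F.pt x - z| ≤ r)
    · obtain ⟨zc, h1, h2⟩ := hball x (Finset.mem_filter.1 hx).2.1 (Finset.mem_filter.1 hx).2.2
      exact ⟨zc, fun _ => ⟨h1, h2⟩⟩
    · exact ⟨0, fun h => absurd h hx⟩
  choose g hg using hch
  rw [← Finset.sum_fiberwise_of_maps_to (t := cov) (g := g) fun x hx => (hg x hx).1]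
  have hone : ∀ zc ∈ cov, ∑ x ∈ (univ.filter fun x => (x, b) ∈ F.S ∧ |c j ⬝ᵥ F.pt x - z| ≤ r) with g x = zc, F.μ x
      ≤ K * (3 * L * A * r) ^ (((n + 2 : ℕ) : ℝ) * d0) := by
    intro zc _
    refine le_trans ?_ (kf_frost_ext hF.μ0 hF.μ1 hK hα hF.frost (zc + (z - c j ⬝ᵥ zc) • u j) (3 * L * A * r)
      (by nlinarith))
    refine Finset.sum_le_sum_of_subset_of_nonneg ?_ fun x _ _ => hF.μ0 x
    intro x hx
    obtain ⟨hx1, hx2⟩ := Finset.mem_filter.1 hx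
    refine Finset.mem_filter.2 ⟨Finset.mem_univ _, ?_⟩
    rw [← hx2]
    exact (hg x hx1).2
  refine (Finset.sum_le_card_nsmul _ _ _ hone).trans ?_
  rw [nsmul_eq_mul, Real.mul_rpow (by positivity) hr0.le]
  have hp1 : 0 ≤ (3 * L * A) ^ (((n + 2 : ℕ) : ℝ) * d0) := by positivity
  have hp2 : 0 < r ^ (((n + 2 : ℕ) : ℝ) * d0) := Real.rpow_pos_of_pos hr0 _
  have e2 : r ^ (-((((n + 2 : ℕ) : ℝ) - 1) * d0)) * r ^ (((n + 2 : ℕ) : ℝ) * d0) = r ^ d0 := by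
    rw [← Real.rpow_add hr0]
    congr 1
    ring
  calc (cov.card : ℝ) * (K * ((3 * L * A) ^ (((n + 2 : ℕ) : ℝ) * d0) * r ^ (((n + 2 : ℕ) : ℝ) * d0)))
      ≤ (K * r ^ (-((((n + 2 : ℕ) : ℝ) - 1) * d0))) * (K * ((3 * L * A) ^ (((n + 2 : ℕ) : ℝ) * d0) * r ^ (((n + 2 : ℕ) : ℝ) * d0))) := by
        gcongr
    _ = K ^ 2 * (3 * L * A) ^ (((n + 2 : ℕ) : ℝ) * d0) * (r ^ (-((((n + 2 : ℕ) : ℝ) - 1) * d0)) * r ^ (((n + 2 : ℕ) : ℝ) * d0)) := by ring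
    _ = _ := by rw [e2]

/-- LEAF `L-PJ-H5` **slopes are Frostman `γ`** (exit 3).
PLAN.  `w = c i1 - z • c i0`, `w·u i1 = 1` (`D.bi`, `h01`), `D.one_le`: `1 ≤ ‖w‖₁ A`.   On the event `|w·dir b| ≤ r |c i0·dir b| ≤ r L A ≤ (L A² r) ‖w‖₁` (`D.coord_le`, `hF.hdir`).
`PjCfg.Ok.strip_hom` (file `Select.lean` is NOT imported here: it is restated below as the hypothesis `hs`) at the radius `L A² r ≥ ρ`; `Real.mul_rpow`. -/
theorem pj_slope (n : ℕ) {X T : Type} [Fintype X] [Fintype T] (F : PjCfg (n + 2) X T) {ρ K A d0 γ L : ℝ} (hF : F.Ok ρ K A d0 γ)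
    (hs : ∀ w : Fin (n + 2) → ℝ, 0 < ∑ l, |w l| → ∀ r : ℝ, ρ ≤ r → ∑ b with |w ⬝ᵥ F.dir b| ≤ r * ∑ l, |w l|, F.ν b ≤ K * r ^ γ)
    (hK : 1 ≤ K) (hA : 1 ≤ A) (hρ : 0 < ρ) (hγ : 0 ≤ γ) (hL : 1 ≤ L) {u c : Fin (n + 2) → Fin (n + 2) → ℝ}
    (D : PjDual (n + 2) A L u c) (i0 i1 : Fin (n + 2)) (h01 : i0 ≠ i1) (z r : ℝ) (hr : ρ ≤ r) :
    ∑ b with |c i1 ⬝ᵥ F.dir b - z * (c i0 ⬝ᵥ F.dir b)| ≤ r * |c i0 ⬝ᵥ F.dir b|, F.ν b ≤ K * (L * A ^ 2) ^ γ * r ^ γ := by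
  have hA0 : 0 < A := lt_of_lt_of_le one_pos hA
  have hL0 : 0 < L := lt_of_lt_of_le one_pos hL
  have hr0 : 0 < r := lt_of_lt_of_le hρ hr
  have hdot : ∀ x : Fin (n + 2) → ℝ, (c i1 - z • c i0) ⬝ᵥ x = c i1 ⬝ᵥ x - z * (c i0 ⬝ᵥ x) := fun x => by
    rw [sub_dotProduct, smul_dotProduct, smul_eq_mul]
  have hw1 : (c i1 - z • c i0) ⬝ᵥ u i1 = 1 := by
    rw [hdot, D.bi i1 i1, D.bi i0 i1, if_pos rfl, if_neg h01, mul_zero, sub_zero]
  have h1 : 1 ≤ (∑ l, |(c i1 - z • c i0) l|) * A := D.one_le _ i1 hw1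
  have hpos : 0 < ∑ l, |(c i1 - z • c i0) l| := by
    by_contra hcon
    have h0 : (∑ l, |(c i1 - z • c i0) l|) * A ≤ 0 := mul_nonpos_of_nonpos_of_nonneg (not_lt.1 hcon) hA0.le
    linarith
  have hLA : 1 ≤ L * A ^ 2 := by
    have hA2 : 1 ≤ A ^ 2 := one_le_pow₀ hA
    calc (1 : ℝ) = 1 * 1 := (one_mul 1).symm
      _ ≤ L * A ^ 2 := mul_le_mul hL hA2 zero_le_one hL0.le
  have hρ' : ρ ≤ L * A ^ 2 * r := by
    calc ρ ≤ r := hr
      _ = 1 * r := (one_mul r).symm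
      _ ≤ L * A ^ 2 * r := mul_le_mul_of_nonneg_right hLA hr0.le
  have hmain := hs (c i1 - z • c i0) hpos (L * A ^ 2 * r) hρ'
  have hsub : (Finset.univ.filter fun b => |c i1 ⬝ᵥ F.dir b - z * (c i0 ⬝ᵥ F.dir b)| ≤ r * |c i0 ⬝ᵥ F.dir b|)
      ⊆ Finset.univ.filter fun b => |(c i1 - z • c i0) ⬝ᵥ F.dir b| ≤ L * A ^ 2 * r * ∑ l, |(c i1 - z • c i0) l| := by
    intro b hb
    rw [Finset.mem_filter] at hb ⊢
    refine ⟨Finset.mem_univ _, ?_⟩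
    rw [hdot]
    have hc0 : |c i0 ⬝ᵥ F.dir b| ≤ L * A := D.coord_le i0 (F.dir b) A hA0.le (hF.hdir b)
    calc |c i1 ⬝ᵥ F.dir b - z * (c i0 ⬝ᵥ F.dir b)| ≤ r * |c i0 ⬝ᵥ F.dir b| := hb.2
      _ ≤ r * (L * A) := mul_le_mul_of_nonneg_left hc0 hr0.le
      _ = r * (L * A) * 1 := (mul_one _).symm
      _ ≤ r * (L * A) * ((∑ l, |(c i1 - z • c i0) l|) * A) := mul_le_mul_of_nonneg_left h1 (by positivity)
      _ = L * A ^ 2 * r * ∑ l, |(c i1 - z • c i0) l| := by ring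
  calc ∑ b with |c i1 ⬝ᵥ F.dir b - z * (c i0 ⬝ᵥ F.dir b)| ≤ r * |c i0 ⬝ᵥ F.dir b|, F.ν b
      ≤ ∑ b with |(c i1 - z • c i0) ⬝ᵥ F.dir b| ≤ L * A ^ 2 * r * ∑ l, |(c i1 - z • c i0) l|, F.ν b :=
        Finset.sum_le_sum_of_subset_of_nonneg hsub fun b _ _ => hF.ν0 b
    _ ≤ K * (L * A ^ 2 * r) ^ γ := hmain
    _ = K * (L * A ^ 2) ^ γ * r ^ γ := by
        rw [Real.mul_rpow (by positivity) hr0.le, mul_assoc]

end Claimed.Agent.R257
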