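import Claimed.Agent.R257.Proj.Select
import Claimed.Agent.R257.Proj.Slices
import Claimed.Agent.R257.Proj.Planar

/-!
# ROW 257, package FR3, unit PROJ, file 7: FROM THE CONFIGURATION IN `ℝ^d` TO THE PLANAR CONFIGURATION      (architect helper121)

PAPER-FREE.   `L = pjL A r0 (n+3)` bounds all dual bases which occur (`n+2` pivots of the selection + one pivot by the tag `b`).
-/

set_option autoImplicit false

namespace Claimed.Agent.R257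

open Finset Matrix Claimed.Agent.RW
open scoped Classical

/-- `((n+2) A)^α` -/
noncomputable def pjE (n : ℕ) (A d0 : ℝ) : ℝ := (((n + 2 : ℕ) : ℝ) * A) ^ (((n + 2 : ℕ) : ℝ) * d0)

/-- the parameter `K2` of `pj_slices`: light mass `= (8 (n+3) K^(n+3))⁻¹` -/
noncomputable def pjK2 (n : ℕ) (K A d0 L : ℝ) : ℝ :=
  8 * ((n + 3 : ℕ) : ℝ) * K ^ (n + 3) * ((K * (2 * L + 3)) ^ (n + 1) * (K * pjE n A d0))

/-- number of heavy labels `/ ρ^(-d0)` -/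
noncomputable def pjKH (n : ℕ) (K A d0 L : ℝ) : ℝ := (K * (2 * L + 3)) ^ (n + 2) * pjK2 n K A d0 L ^ (n + 1)

/-- the loss of the planar configuration -/
noncomputable def pjW (n : ℕ) (K A d0 γ L : ℝ) : ℝ :=
  K * (L * A ^ 2) ^ γ + K ^ 2 * (3 * L * A) ^ (((n + 2 : ℕ) : ℝ) * d0) + pjKH n K A d0 L ^ n * (K * pjE n A d0) + pjKH n K A d0 L +
    8 * K ^ (n + 3)

/-- exchange of sums -/
theorem pj_tags_swap {X T : Type} [Fintype X] [Fintype T] (μ : X → ℝ) (ν : T → ℝ) (S : Finset (X × T)) (𝒢 : X → Prop) :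
    ∑ x with 𝒢 x, μ x * ∑ b with (x, b) ∈ S, ν b = ∑ b, ν b * ∑ x with 𝒢 x ∧ (x, b) ∈ S, μ x := by
  calc ∑ x with 𝒢 x, μ x * ∑ b with (x, b) ∈ S, ν b
      = ∑ x, ∑ b, (if 𝒢 x ∧ (x, b) ∈ S then μ x * ν b else 0) := by
        rw [Finset.sum_filter]
        refine Finset.sum_congr rfl fun x _ => ?_
        by_cases h1 : 𝒢 x
        · rw [if_pos h1, Finset.sum_filter, Finset.mul_sum]
          refine Finset.sum_congr rfl fun b _ => ?_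
          by_cases h2 : (x, b) ∈ S
          · simp [h1, h2]
          · simp [h2]
        · simp [h1]
    _ = ∑ b, ∑ x, (if 𝒢 x ∧ (x, b) ∈ S then μ x * ν b else 0) := Finset.sum_comm
    _ = ∑ b, ν b * ∑ x with 𝒢 x ∧ (x, b) ∈ S, μ x := by
        refine Finset.sum_congr rfl fun b _ => ?_
        rw [Finset.sum_filter, Finset.mul_sum]
        refine Finset.sum_congr rfl fun x _ => ?_
        by_cases h : 𝒢 x ∧ (x, b) ∈ S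
        · rw [if_pos h, if_pos h, mul_comm]
        · rw [if_neg h, if_neg h, mul_zero]

/-- union bound for three classes -/
theorem pj_tags_three {T : Type} [Fintype T] (f : T → ℝ) (hf : ∀ b, 0 ≤ f b) (P Q R : T → Prop) (h : ∀ b, P b ∨ Q b ∨ R b) :
    ∑ b, f b ≤ ∑ b with P b, f b + ∑ b with Q b, f b + ∑ b with R b, f b := by
  simp only [Finset.sum_filter]
  rw [← Finset.sum_add_distrib, ← Finset.sum_add_distrib]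
  refine Finset.sum_le_sum fun b _ => ?_
  have := hf b
  rcases h b with h1 | h1 | h1
  · rw [if_pos h1]
    split_ifs <;> linarith
  · rw [if_pos h1]
    split_ifs <;> linarith
  · rw [if_pos h1]
    split_ifs <;> linarith

/-- LEAF `L-PJ-G1` **the two coordinates.**
PLAN.  `m b = ∑_{x : 𝒢 x ∧ (x,b) ∈ S} μ x ∈ [0,1]`;  `∑_{x ∈ 𝒢} μ x deg x = ∑_b ν b m b` (exchange of sums as in `pj_select_step`).   With `i = 0`, `i' = 1` (`Fin (n+2)`): every tag lies in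
`Bad = {|c 0·dir b| ≤ r0 ‖c 0‖₁}` or `T(0,1)` or `T(1,0)`  [if `|c 1·| ≤ |c 0·|`: `r0/A ≤ |c 0·|` or `|c 0·| < r0/A ≤ r0 ‖c 0‖₁` (`D.one_le (c 0) 0`); else symmetric: `|c 0·| < |c 1·| < r0/A`].
`∑_Bad ν m ≤ K r0^γ` (`strip_hom`), so `Φ ≤ K r0^γ + Σ(0,1) + Σ(1,0)`. -/
theorem pj_tags (n : ℕ) {X T : Type} [Fintype X] [Fintype T] (F : PjCfg (n + 2) X T) {ρ K A d0 γ r0 L Φ : ℝ} (hF : F.Ok ρ K A d0 γ)
    (hK : 1 ≤ K) (hγ : 0 ≤ γ) (hA : 1 ≤ A) (hρ : 0 < ρ) (hr0 : ρ ≤ r0) (β : Fin (n + 2) → T) {c : Fin (n + 2) → Fin (n + 2) → ℝ}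
    (D : PjDual (n + 2) A L (fun i => F.dir (β i)) c) (hΦ : Φ ≤ ∑ x with ∀ i, (x, β i) ∈ F.S, F.μ x * F.deg x) :
    ∃ i0 i1 : Fin (n + 2), i0 ≠ i1 ∧ (Φ - K * r0 ^ γ) / 2 ≤
      ∑ b with r0 / A ≤ |c i0 ⬝ᵥ F.dir b| ∧ |c i1 ⬝ᵥ F.dir b| ≤ |c i0 ⬝ᵥ F.dir b|,
        F.ν b * ∑ x with (∀ i, (x, β i) ∈ F.S) ∧ (x, b) ∈ F.S, F.μ x := by
  have hA0 : 0 < A := by linarith
  have hr00 : 0 < r0 := hρ.trans_le hr0
  set m : T → ℝ := fun b => ∑ x with (∀ i, (x, β i) ∈ F.S) ∧ (x, b) ∈ F.S, F.μ x with hm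
  have hm0 : ∀ b, 0 ≤ m b := fun b => Finset.sum_nonneg fun x _ => hF.μ0 x
  have hm1 : ∀ b, m b ≤ 1 := fun b =>
    (Finset.sum_le_sum_of_subset_of_nonneg (Finset.filter_subset _ _) fun x _ _ => hF.μ0 x).trans hF.μ1
  have hswap : ∑ x with ∀ i, (x, β i) ∈ F.S, F.μ x * F.deg x = ∑ b, F.ν b * m b := by
    unfold PjCfg.deg
    convert pj_tags_swap F.μ F.ν F.S fun x => ∀ i, (x, β i) ∈ F.S
  have h1 : 1 ≤ (∑ l, |c 0 l|) * A := D.one_le (c 0) 0 (by simp [D.bi])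
  have hpos : 0 < ∑ l, |c 0 l| := by
    by_contra h
    have h2 : ∑ l, |c 0 l| ≤ 0 := not_lt.1 h
    nlinarith
  have hrA : r0 / A ≤ r0 * ∑ l, |c 0 l| := by
    rw [div_le_iff₀ hA0, mul_assoc]
    nlinarith
  have hcase : ∀ b, |c 0 ⬝ᵥ F.dir b| ≤ r0 * ∑ l, |c 0 l| ∨
      (r0 / A ≤ |c 0 ⬝ᵥ F.dir b| ∧ |c 1 ⬝ᵥ F.dir b| ≤ |c 0 ⬝ᵥ F.dir b|) ∨
      (r0 / A ≤ |c 1 ⬝ᵥ F.dir b| ∧ |c 0 ⬝ᵥ F.dir b| ≤ |c 1 ⬝ᵥ F.dir b|) := by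
    intro b
    rcases le_or_gt |c 1 ⬝ᵥ F.dir b| |c 0 ⬝ᵥ F.dir b| with h2 | h2
    · rcases le_or_gt (r0 / A) |c 0 ⬝ᵥ F.dir b| with h3 | h3
      · exact Or.inr (Or.inl ⟨h3, h2⟩)
      · exact Or.inl (h3.le.trans hrA)
    · rcases le_or_gt (r0 / A) |c 1 ⬝ᵥ F.dir b| with h3 | h3
      · exact Or.inr (Or.inr ⟨h3, h2.le⟩)
      · exact Or.inl ((h2.trans h3).le.trans hrA)
  have h3 : ∑ b, F.ν b * m b ≤ ∑ b with |c 0 ⬝ᵥ F.dir b| ≤ r0 * ∑ l, |c 0 l|, F.ν b * m b +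
        ∑ b with r0 / A ≤ |c 0 ⬝ᵥ F.dir b| ∧ |c 1 ⬝ᵥ F.dir b| ≤ |c 0 ⬝ᵥ F.dir b|, F.ν b * m b +
      ∑ b with r0 / A ≤ |c 1 ⬝ᵥ F.dir b| ∧ |c 0 ⬝ᵥ F.dir b| ≤ |c 1 ⬝ᵥ F.dir b|, F.ν b * m b := by
    convert pj_tags_three (fun b => F.ν b * m b) (fun b => mul_nonneg (hF.ν0 b) (hm0 b)) _ _ _ hcase
  have hbad : ∑ b with |c 0 ⬝ᵥ F.dir b| ≤ r0 * ∑ l, |c 0 l|, F.ν b * m b ≤ K * r0 ^ γ := by
    refine le_trans (Finset.sum_le_sum fun b _ => ?_) (hF.strip_hom hK hγ (c 0) hpos r0 hr0)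
    exact mul_le_of_le_one_right (hF.ν0 b) (hm1 b)
  rw [hswap] at hΦ
  by_cases h4 : (Φ - K * r0 ^ γ) / 2 ≤
      ∑ b with r0 / A ≤ |c 0 ⬝ᵥ F.dir b| ∧ |c 1 ⬝ᵥ F.dir b| ≤ |c 0 ⬝ᵥ F.dir b|, F.ν b * m b
  · exact ⟨0, 1, by simp, h4⟩
  · refine ⟨1, 0, by simp, ?_⟩
    have h5 := not_le.1 h4
    show (Φ - K * r0 ^ γ) / 2 ≤
      ∑ b with r0 / A ≤ |c 1 ⬝ᵥ F.dir b| ∧ |c 0 ⬝ᵥ F.dir b| ≤ |c 1 ⬝ᵥ F.dir b|, F.ν b * m b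
    linarith

theorem pj_fibre_card (n : ℕ) (H : Fin (n + 2) → Finset ℤ) {Nn : ℝ} (hH : ∀ i, ((H i).card : ℝ) ≤ Nn)
    (i0 i1 : Fin (n + 2)) (h01 : i0 ≠ i1) (k0 k1 : ℤ) :
    ((Fintype.piFinset fun i => if i = i0 then {k0} else if i = i1 then {k1} else H i).card : ℝ) ≤ Nn ^ n := by
  rw [Fintype.card_piFinset]
  push_cast
  have h1 : ∀ i ∈ (Finset.univ : Finset (Fin (n + 2))),
      (((if i = i0 then {k0} else if i = i1 then {k1} else H i : Finset ℤ).card : ℕ) : ℝ)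
        ≤ if i ∈ ({i0, i1} : Finset (Fin (n + 2))) then 1 else Nn := by
    intro i _
    by_cases h2 : i = i0
    · simp [h2]
    · by_cases h3 : i = i1
      · simp [h3, Ne.symm h01]
      · simp only [h2, h3, if_false, Finset.mem_insert, Finset.mem_singleton, or_self]
        exact hH i
  refine (Finset.prod_le_prod (fun i _ => Nat.cast_nonneg _) h1).trans (le_of_eq ?_)
  rw [Finset.prod_ite, Finset.prod_const_one, one_mul, Finset.prod_const]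
  congr 1
  have h4 : (Finset.univ : Finset (Fin (n + 2))).filter (fun i => i ∉ ({i0, i1} : Finset (Fin (n + 2))))
      = Finset.univ \ {i0, i1} := by
    ext i
    simp
  rw [h4, Finset.card_univ_sdiff, Finset.card_pair h01, Fintype.card_fin]
  omega

/-- LEAF `L-PJ-G2` **mass of a planar cell.**
PLAN.  The label vectors `pjLab ρ c (pt x)` of the points of the sum lie in `Fintype.piFinset fun i => if i = i0 then {k0} else if i = i1 then {k1} else H i`, of cardinality `≤ Nn^n`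
(`Fintype.card_piFinset`; split the product: `Finset.prod_ite`, or `Finset.prod_le_pow_card` on `(univ.erase i0).erase i1`, which has `n` elements; cast to `ℝ`).
`Finset.sum_fiberwise_of_maps_to` + `pj_cell_mass` + `Finset.sum_le_card_nsmul`. -/
theorem pj_fibre (n : ℕ) {X T : Type} [Fintype X] [Fintype T] (F : PjCfg (n + 2) X T) {ρ K A d0 γ L Nn : ℝ} (hF : F.Ok ρ K A d0 γ)
    (hK : 1 ≤ K) (hA : 1 ≤ A) (hρ : 0 < ρ) (hd0 : 0 ≤ d0) {u c : Fin (n + 2) → Fin (n + 2) → ℝ} (D : PjDual (n + 2) A L u c)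
    (H : Fin (n + 2) → Finset ℤ) (hN : 1 ≤ Nn) (hH : ∀ i, ((H i).card : ℝ) ≤ Nn) (i0 i1 : Fin (n + 2)) (h01 : i0 ≠ i1) (k0 k1 : ℤ) :
    ∑ x with (∀ i, ⌊(c i ⬝ᵥ F.pt x) / ρ⌋ ∈ H i) ∧ ⌊(c i0 ⬝ᵥ F.pt x) / ρ⌋ = k0 ∧ ⌊(c i1 ⬝ᵥ F.pt x) / ρ⌋ = k1, F.μ x ≤
      Nn ^ n * (K * (((n + 2 : ℕ) : ℝ) * A * ρ) ^ (((n + 2 : ℕ) : ℝ) * d0)) := by
  set B : ℝ := K * (((n + 2 : ℕ) : ℝ) * A * ρ) ^ (((n + 2 : ℕ) : ℝ) * d0) with hB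
  have hB0 : 0 ≤ B := mul_nonneg (by linarith) (Real.rpow_nonneg (by positivity) _)
  set Pi : Finset (Fin (n + 2) → ℤ) := Fintype.piFinset fun i => if i = i0 then {k0} else if i = i1 then {k1} else H i
    with hPi
  have hmaps : ∀ x ∈ (Finset.univ : Finset X).filter (fun x => (∀ i, ⌊(c i ⬝ᵥ F.pt x) / ρ⌋ ∈ H i) ∧
      ⌊(c i0 ⬝ᵥ F.pt x) / ρ⌋ = k0 ∧ ⌊(c i1 ⬝ᵥ F.pt x) / ρ⌋ = k1), pjLab ρ c (F.pt x) ∈ Pi := by
    intro x hx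
    obtain ⟨h1, h2, h3⟩ := (Finset.mem_filter.1 hx).2
    rw [hPi, Fintype.mem_piFinset]
    intro i
    by_cases h4 : i = i0
    · subst h4
      simp [pjLab, h2]
    · by_cases h5 : i = i1
      · subst h5
        simp [pjLab, h3, h4]
      · simp only [h4, h5, if_false]
        exact h1 i
  rw [← Finset.sum_fiberwise_of_maps_to hmaps]
  calc _ ≤ ∑ ℓ ∈ Pi, B := by
        refine Finset.sum_le_sum fun ℓ _ => ?_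
        refine le_trans ?_ (pj_cell_mass n F hF hK hA hρ hd0 D ℓ)
        refine Finset.sum_le_sum_of_subset_of_nonneg ?_ fun x _ _ => hF.μ0 x
        intro x hx
        exact Finset.mem_filter.2 ⟨Finset.mem_univ _, (Finset.mem_filter.1 hx).2⟩
    _ = (Pi.card : ℝ) * B := by rw [Finset.sum_const, nsmul_eq_mul]
    _ ≤ Nn ^ n * B := mul_le_mul_of_nonneg_right (pj_fibre_card n H hH i0 i1 h01 k0 k1) hB0

theorem pj_gm_one {X : Type} [Fintype X] (d : ℕ) (μ : X → ℝ) (hμ : ∀ x, 0 ≤ μ x) (P Q : X → Prop) (Lt : Fin d → X → Prop)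
    (Lbb : X → Prop) :
    ∑ x with P x ∧ Q x, μ x ≤ ∑ x with P x ∧ Q x ∧ (∀ i, ¬ Lt i x) ∧ ¬ Lbb x, μ x + ∑ i, ∑ x with P x ∧ Lt i x, μ x
      + ∑ x with P x ∧ Q x ∧ Lbb x, μ x := by
  simp only [Finset.sum_filter]
  rw [Finset.sum_comm, ← Finset.sum_add_distrib, ← Finset.sum_add_distrib]
  refine Finset.sum_le_sum fun x _ => ?_
  have n1 : 0 ≤ (if P x ∧ Q x ∧ (∀ i, ¬ Lt i x) ∧ ¬ Lbb x then μ x else 0) := by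
    split_ifs
    exacts [hμ x, le_rfl]
  have n2i : ∀ i ∈ (Finset.univ : Finset (Fin d)), 0 ≤ (if P x ∧ Lt i x then μ x else 0) := by
    intro i _
    split_ifs
    exacts [hμ x, le_rfl]
  have n2 : 0 ≤ ∑ i, (if P x ∧ Lt i x then μ x else 0) := Finset.sum_nonneg n2i
  have n3 : 0 ≤ (if P x ∧ Q x ∧ Lbb x then μ x else 0) := by
    split_ifs
    exacts [hμ x, le_rfl]
  by_cases h : P x ∧ Q x
  · rw [if_pos h]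
    by_cases hb : Lbb x
    · rw [if_pos (⟨h.1, h.2, hb⟩ : P x ∧ Q x ∧ Lbb x)]
      linarith
    · by_cases hl : ∃ i, Lt i x
      · obtain ⟨i, hi⟩ := hl
        have := Finset.single_le_sum n2i (Finset.mem_univ i)
        rw [if_pos (⟨h.1, hi⟩ : P x ∧ Lt i x)] at this
        linarith
      · rw [if_pos (⟨h.1, h.2, fun i hi => hl ⟨i, hi⟩, hb⟩ : P x ∧ Q x ∧ (∀ i, ¬ Lt i x) ∧ ¬ Lbb x)]
        linarith
  · rw [if_neg h]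
    linarith

/-- LEAF `L-PJ-G3` **mass of the final graph** (union bound; no geometry).   `𝒢 x` = common neighbour, `Lt i x` = the `i`-th label of `x` is light, `Lb b x` = the label of `x` for the tag `b` is light.
PLAN.  For `b` with `Tg b`: `{x : 𝒢 x ∧ (x,b) ∈ S} ⊆ {x : 𝒢 x ∧ (x,b) ∈ S ∧ (∀ i, ¬Lt i x) ∧ ¬Lb b x} ∪ ⋃_i {𝒢 ∧ Lt i} ∪ {𝒢 ∧ (x,b) ∈ S ∧ Lb b}`, so `m b ≤ m' b + (n+2) ε + ε`; multiply by `ν b`, sum (`∑ ν ≤ 1`);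
`∑_{b : Tg b} ν b m' b` = the sum over the filtered `S` (`Finset.sum_finset_product_right'` or indicators + `Finset.sum_comm`). -/
theorem pj_graph_mass {X T : Type} [Fintype X] [Fintype T] (d : ℕ) (μ : X → ℝ) (ν : T → ℝ) (S : Finset (X × T)) (hμ : ∀ x, 0 ≤ μ x)
    (hν : ∀ b, 0 ≤ ν b) (hν1 : ∑ b, ν b ≤ 1) (𝒢 : X → Prop) (Lt : Fin d → X → Prop) (Tg : T → Prop) (Lb : T → X → Prop) (ε : ℝ) (hε : 0 ≤ ε)
    (h1 : ∀ i, ∑ x with 𝒢 x ∧ Lt i x, μ x ≤ ε) (h2 : ∀ b, Tg b → ∑ x with 𝒢 x ∧ (x, b) ∈ S ∧ Lb b x, μ x ≤ ε) :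
    (∑ b with Tg b, ν b * ∑ x with 𝒢 x ∧ (x, b) ∈ S, μ x) - ((d : ℝ) + 1) * ε ≤
      ∑ p ∈ S with (𝒢 p.1 ∧ ∀ i, ¬ Lt i p.1) ∧ Tg p.2 ∧ ¬ Lb p.2 p.1, μ p.1 * ν p.2 := by
  have hR : ∑ p ∈ S with (𝒢 p.1 ∧ ∀ i, ¬ Lt i p.1) ∧ Tg p.2 ∧ ¬ Lb p.2 p.1, μ p.1 * ν p.2
      = ∑ b with Tg b, ν b * ∑ x with 𝒢 x ∧ (x, b) ∈ S ∧ (∀ i, ¬ Lt i x) ∧ ¬ Lb b x, μ x := by
    have e1 : S.filter (fun p => (𝒢 p.1 ∧ ∀ i, ¬ Lt i p.1) ∧ Tg p.2 ∧ ¬ Lb p.2 p.1)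
        = (Finset.univ : Finset (X × T)).filter
            (fun p => p ∈ S ∧ (𝒢 p.1 ∧ ∀ i, ¬ Lt i p.1) ∧ Tg p.2 ∧ ¬ Lb p.2 p.1) := by
      ext p
      simp
    rw [e1]
    simp only [Finset.sum_filter, Finset.mul_sum]
    rw [Fintype.sum_prod_type_right]
    refine Finset.sum_congr rfl fun b _ => ?_
    by_cases hb : Tg b
    · rw [if_pos hb]
      refine Finset.sum_congr rfl fun x _ => ?_
      by_cases hc : 𝒢 x ∧ (x, b) ∈ S ∧ (∀ i, ¬ Lt i x) ∧ ¬ Lb b x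
      · rw [if_pos hc, if_pos ⟨hc.2.1, ⟨hc.1, hc.2.2.1⟩, hb, hc.2.2.2⟩, mul_comm]
      · rw [if_neg hc, if_neg (fun h => hc ⟨h.2.1.1, h.1, h.2.1.2, h.2.2.2⟩), mul_zero]
    · rw [if_neg hb]
      refine Finset.sum_eq_zero fun x _ => ?_
      rw [if_neg (fun h => hb h.2.2.1)]
  rw [hR]
  have hb : ∀ b ∈ (Finset.univ : Finset T).filter Tg, ν b * ∑ x with 𝒢 x ∧ (x, b) ∈ S, μ x
      ≤ ν b * ∑ x with 𝒢 x ∧ (x, b) ∈ S ∧ (∀ i, ¬ Lt i x) ∧ ¬ Lb b x, μ x + ν b * (((d : ℝ) + 1) * ε) := by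
    intro b hb
    rw [← mul_add]
    refine mul_le_mul_of_nonneg_left ?_ (hν b)
    have h3 : ∑ x with 𝒢 x ∧ (x, b) ∈ S, μ x ≤ ∑ x with 𝒢 x ∧ (x, b) ∈ S ∧ (∀ i, ¬ Lt i x) ∧ ¬ Lb b x, μ x
        + ∑ i, ∑ x with 𝒢 x ∧ Lt i x, μ x + ∑ x with 𝒢 x ∧ (x, b) ∈ S ∧ Lb b x, μ x := by
      convert pj_gm_one d μ hμ 𝒢 (fun x => (x, b) ∈ S) Lt (Lb b)
    have h4 : ∑ i, ∑ x with 𝒢 x ∧ Lt i x, μ x ≤ (d : ℝ) * ε := by
      refine (Finset.sum_le_card_nsmul _ _ ε fun i _ => h1 i).trans (le_of_eq ?_)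
      simp
    have h5 := h2 b (Finset.mem_filter.1 hb).2
    linarith
  have h6 := Finset.sum_le_sum hb
  rw [Finset.sum_add_distrib, ← Finset.sum_mul] at h6
  have h7 : ∑ b with Tg b, ν b ≤ 1 :=
    (Finset.sum_le_sum_of_subset_of_nonneg (Finset.filter_subset _ _) fun b _ _ => hν b).trans hν1
  have h8 : (∑ b with Tg b, ν b) * (((d : ℝ) + 1) * ε) ≤ 1 * (((d : ℝ) + 1) * ε) :=
    mul_le_mul_of_nonneg_right h7 (by positivity)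
  linarith

/-- LEAF `L-PJ-G4` **positivity and size of the constants** -/
theorem pj_const_ge (n : ℕ) {K A d0 L : ℝ} (hK : 1 ≤ K) (hA : 1 ≤ A) (hd0 : 0 ≤ d0) (hL : 1 ≤ L) :
    1 ≤ pjE n A d0 ∧ 1 ≤ pjK2 n K A d0 L ∧ 1 ≤ pjKH n K A d0 L ∧
      (K * (2 * L + 3)) ^ (n + 1) * (K * pjE n A d0) / pjK2 n K A d0 L = (8 * ((n + 3 : ℕ) : ℝ) * K ^ (n + 3))⁻¹ := by
  have hE : 1 ≤ pjE n A d0 := by
    unfold pjE
    refine Real.one_le_rpow ?_ (by positivity)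
    have : (1 : ℝ) ≤ ((n + 2 : ℕ) : ℝ) := by
      push_cast
      have : (0 : ℝ) ≤ n := Nat.cast_nonneg n
      linarith
    nlinarith
  have hq : 1 ≤ K * (2 * L + 3) := by nlinarith
  have hX : 1 ≤ (K * (2 * L + 3)) ^ (n + 1) * (K * pjE n A d0) :=
    one_le_mul_of_one_le_of_one_le (one_le_pow₀ hq) (one_le_mul_of_one_le_of_one_le hK hE)
  have hc : 1 ≤ 8 * ((n + 3 : ℕ) : ℝ) * K ^ (n + 3) := by
    have h1 : (1 : ℝ) ≤ ((n + 3 : ℕ) : ℝ) := by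
      push_cast
      have : (0 : ℝ) ≤ n := Nat.cast_nonneg n
      linarith
    have h2 : 1 ≤ K ^ (n + 3) := one_le_pow₀ hK
    have h3 : (1 : ℝ) ≤ 8 * ((n + 3 : ℕ) : ℝ) := by linarith
    exact one_le_mul_of_one_le_of_one_le h3 h2
  have hK2 : 1 ≤ pjK2 n K A d0 L := by
    unfold pjK2
    exact one_le_mul_of_one_le_of_one_le hc hX
  refine ⟨hE, hK2, ?_, ?_⟩
  · unfold pjKH
    exact one_le_mul_of_one_le_of_one_le (one_le_pow₀ hq) (one_le_pow₀ hK2)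
  · unfold pjK2
    have hX0 : (K * (2 * L + 3)) ^ (n + 1) * (K * pjE n A d0) ≠ 0 := by positivity
    have hc0 : 8 * ((n + 3 : ℕ) : ℝ) * K ^ (n + 3) ≠ 0 := by positivity
    rw [div_mul_eq_div_div_swap, div_self hX0, one_div]

theorem pj_sum_ite {X : Type} [Fintype X] (μ : X → ℝ) (P Q : X → Prop) [DecidablePred P] [DecidablePred Q]
    [DecidablePred fun x => P x ∧ Q x] :
    ∑ x with P x, (if Q x then μ x else 0) = ∑ x with P x ∧ Q x, μ x := by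
  rw [← Finset.sum_filter, Finset.filter_filter]
  refine Finset.sum_congr ?_ fun _ _ => rfl
  ext x
  simp only [Finset.mem_filter]

theorem pj_sum_mono {X : Type} [Fintype X] (μ : X → ℝ) (hμ : ∀ x, 0 ≤ μ x) (P P' : X → Prop) [DecidablePred P] [DecidablePred P']
    (h : ∀ x, P x → P' x) :
    ∑ x with P x, μ x ≤ ∑ x with P' x, μ x :=
  Finset.sum_le_sum_of_subset_of_nonneg (fun x hx => by
    simp only [Finset.mem_filter, Finset.mem_univ, true_and] at hx ⊢; exact h x hx) fun x _ _ => hμ x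

/-- the summands of `pjW` -/
theorem pj_W_ge (n : ℕ) {K A d0 γ L : ℝ} (hK : 1 ≤ K) (hA : 1 ≤ A) (hd0 : 0 ≤ d0) (hL : 1 ≤ L) :
    K * (L * A ^ 2) ^ γ ≤ pjW n K A d0 γ L ∧ K ^ 2 * (3 * L * A) ^ (((n + 2 : ℕ) : ℝ) * d0) ≤ pjW n K A d0 γ L ∧
    pjKH n K A d0 L ^ n * (K * pjE n A d0) ≤ pjW n K A d0 γ L ∧ pjKH n K A d0 L ≤ pjW n K A d0 γ L ∧
    8 * K ^ (n + 3) ≤ pjW n K A d0 γ L := by
  obtain ⟨hE, hK2, hKH, -⟩ := pj_const_ge n hK hA hd0 hL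
  have hK0 : 0 < K := by linarith
  have hA0 : 0 < A := by linarith
  have hL0 : 0 < L := by linarith
  have hE0 : 0 < pjE n A d0 := by linarith
  have hKH0 : 0 < pjKH n K A d0 L := by linarith
  have a1 : 0 ≤ K * (L * A ^ 2) ^ γ := by positivity
  have a2 : 0 ≤ K ^ 2 * (3 * L * A) ^ (((n + 2 : ℕ) : ℝ) * d0) := by positivity
  have a3 : 0 ≤ pjKH n K A d0 L ^ n * (K * pjE n A d0) := by positivity
  have a5 : 0 ≤ 8 * K ^ (n + 3) := by positivity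
  unfold pjW
  refine ⟨by linarith, by linarith, by linarith, by linarith, by linarith⟩

/-- Step 4: the labels for one more tag -/
theorem pj_core_tag (n : ℕ) {X T : Type} [Fintype X] [Fintype T] (F : PjCfg (n + 2) X T) {ρ K A d0 γ r0 : ℝ} (hF : F.Ok ρ K A d0 γ)
    (hK : 1 ≤ K) (hA : 1 ≤ A) (hρ : 0 < ρ) (hρ1 : ρ ≤ 1) (hd0 : 0 ≤ d0) (hr0 : 0 < r0) (hr1 : r0 ≤ 1) (β : Fin (n + 2) → T)
    {c : Fin (n + 2) → Fin (n + 2) → ℝ} (D0 : PjDual (n + 2) A (pjL A r0 (n + 2)) (fun i => F.dir (β i)) c) (i0 i1 : Fin (n + 2))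
    (h01 : i0 ≠ i1) (b : T) (hb : r0 / A ≤ |c i0 ⬝ᵥ F.dir b|) :
    ∃ Hb : Finset ℤ, (Hb.card : ℝ) ≤ pjKH n K A d0 (pjL A r0 (n + 3)) * ρ ^ (-d0) ∧
      ∑ x with (∀ i, (x, β i) ∈ F.S) ∧ (x, b) ∈ F.S ∧
        ⌊(c i1 ⬝ᵥ F.pt x - (c i1 ⬝ᵥ F.dir b) / (c i0 ⬝ᵥ F.dir b) * (c i0 ⬝ᵥ F.pt x)) / ρ⌋ ∉ Hb, F.μ x
        ≤ (8 * ((n + 3 : ℕ) : ℝ) * K ^ (n + 3))⁻¹ := by
  have hA0 : 0 < A := by linarith
  have hL : 1 ≤ pjL A r0 (n + 3) := pj_L_one_le hA hr0 hr1 (n + 3)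
  obtain ⟨hE, hK2, hKH, hεeq⟩ := pj_const_ge n hK hA hd0 hL
  have D1 := (D0.piv hA0.le i0 (F.dir b) (hF.hdir b) (div_pos hr0 hA0) hb).mono le_rfl (pj_L_succ hA hr0 hr1 (n + 2))
  have eu : (fun i => F.dir (Function.update β i0 b i)) = Function.update (fun i => F.dir (β i)) i0 (F.dir b) := by
    funext i
    by_cases hi : i = i0
    · subst hi; simp
    · simp [Function.update_of_ne hi]
  rw [← eu] at D1
  obtain ⟨Hb, hc, hl⟩ := pj_slices n F hF hK hA hρ hρ1 hd0 hL (by linarith : 0 < pjK2 n K A d0 (pjL A r0 (n + 3)))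
    (Function.update β i0 b) D1 i1
  refine ⟨Hb, hc, ?_⟩
  have hl' : ∑ x with (∀ i, (x, Function.update β i0 b i) ∈ F.S) ∧ ⌊(pjPiv c i0 (F.dir b) i1 ⬝ᵥ F.pt x) / ρ⌋ ∉ Hb, F.μ x
      ≤ (8 * ((n + 3 : ℕ) : ℝ) * K ^ (n + 3))⁻¹ := by
    rw [← hεeq]
    exact hl
  refine le_trans (pj_sum_mono F.μ hF.μ0 _ _ fun x hx => ?_) hl'
  obtain ⟨h1, h2, h3⟩ := hx
  refine ⟨fun i => ?_, ?_⟩
  · by_cases hi : i = i0
    · subst hi; simpa using h2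
    · rw [Function.update_of_ne hi]; exact h1 i
  · have e : pjPiv c i0 (F.dir b) i1 ⬝ᵥ F.pt x
        = c i1 ⬝ᵥ F.pt x - (c i1 ⬝ᵥ F.dir b) / (c i0 ⬝ᵥ F.dir b) * (c i0 ⬝ᵥ F.pt x) := by
      unfold pjPiv
      rw [if_neg (Ne.symm h01), sub_dotProduct, smul_dotProduct, smul_eq_mul]
    rw [e]
    exact h3

/-- the algebra of the `cell` field -/
theorem pj_core_cell_alg (n : ℕ) {ρ K A d0 KH : ℝ} (hρ : 0 < ρ) (hA : 1 ≤ A) :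
    (KH * ρ ^ (-d0)) ^ n * (K * (((n + 2 : ℕ) : ℝ) * A * ρ) ^ (((n + 2 : ℕ) : ℝ) * d0)) = KH ^ n * (K * pjE n A d0) * ρ ^ (2 * d0) := by
  have hA0 : 0 < A := by linarith
  have e1 : (((n + 2 : ℕ) : ℝ) * A * ρ) ^ (((n + 2 : ℕ) : ℝ) * d0) = pjE n A d0 * ρ ^ (((n + 2 : ℕ) : ℝ) * d0) := by
    rw [Real.mul_rpow (by positivity) hρ.le]
    rfl
  have e2 : (ρ ^ (-d0)) ^ n * ρ ^ (((n + 2 : ℕ) : ℝ) * d0) = ρ ^ (2 * d0) := by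
    rw [← Real.rpow_natCast, ← Real.rpow_mul hρ.le, ← Real.rpow_add hρ]
    congr 1
    push_cast
    ring
  rw [e1, mul_pow]
  calc KH ^ n * (ρ ^ (-d0)) ^ n * (K * (pjE n A d0 * ρ ^ (((n + 2 : ℕ) : ℝ) * d0)))
      = KH ^ n * (K * pjE n A d0) * ((ρ ^ (-d0)) ^ n * ρ ^ (((n + 2 : ℕ) : ℝ) * d0)) := by ring
    _ = _ := by rw [e2]

/-- LEAF `L-PJ-G5` **CORE** (exit of this file).   Write `L = pjL A r0 (n+3)`, `K2 = pjK2 ..`, `KH = pjKH ..`, `ε = (8 (n+3) K^(n+3))⁻¹`, `τ = r0/A`.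
PLAN.  1. `pj_select` (its `hsmall` follows from ours): `β, c, D0`, `D = D0.mono le_rfl (pj_L_mono ..)` of size `L`; `Φ = K⁻¹^(n+3) - (n+2) K r0^γ`.   2. `pj_tags`: `i0 ≠ i1`, tag set `Tg`, `Σ ≥ (Φ - K r0^γ)/2 ≥ K⁻¹^(n+3)/4`.
3. `pj_slices .. β D i` with `K2`, for every `i` (`choose H`): `|H i| ≤ KH ρ^(-d0)`, light mass `≤ ε` (`pj_const_ge`).
4. For `b` with `Tg b`: `D0.piv i0 (dir b) (τ := r0/A)` + `pj_L_succ` + `mono` is a `PjDual` of size `L` for the tags `Function.update β i0 b` (rewrite `fun i => dir (update β i0 b i) = update (dir ∘ β) i0 (dir b)`);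
   `pj_slices` for it at `j = i1` gives `Hb b`;  `pjPiv c i0 (dir b) i1 = c i1 - sl b • c i0`, `sl b = (c i1·dir b)/(c i0·dir b)`, so the label is `⌊(a1 x - sl b a0 x)/ρ⌋`; `𝒢 x ∧ (x,b) ∈ S` implies `∀ i, (x, update β i0 b i) ∈ S`.
5. DATA: `𝒢' x = 𝒢 x ∧ ∀ i, lab_i x ∈ H i`; `μ' = μ 1_{𝒢'}`, `ν' = ν 1_{Tg}`, `a0 = c i0·pt`, `a1 = c i1·pt`, `sl' b = if Tg b then sl b else 0`, `G = S.filter (𝒢' ∧ Tg ∧ label ∈ Hb b)`.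
6. FIELDS of `PjPl`: `ha0, ha1`: `D.coord_le`, `hF.hpt`.  `hsl`: `div_le_one`.  `slope`: for `Tg b`: `|sl b - z| ≤ r ↔ |c i1·dir b - z c i0·dir b| ≤ r |c i0·dir b|`; `pj_slope` (with `hs := hF.strip_hom hK hγ.le`).
   `marg`: `𝒢' x → (x, β i0) ∈ S`; `pj_marg .. D i0 (β i0) rfl`.   `cell`: `pj_fibre` with `Nn = KH ρ^(-d0)`, and `(KH ρ^(-d0))^n (K ((n+2)Aρ)^α) = KH^n (K pjE) ρ^(2 d0)`.   `lab`: `H i0`.   `proj`: `Hb b` (`∅` if `¬Tg b`).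
   `mass`: `pj_graph_mass` with `d = n+2`: `≥ K⁻¹^(n+3)/4 - (n+3) ε = K⁻¹^(n+3)/8 = (8K^(n+3))⁻¹ ≥ W⁻¹`; on `G`, `μ' ν' = μ ν`.   Each constant is one summand of `pjW` (all summands are `≥ 0`). -/
theorem pj_core (n : ℕ) {X T : Type} [Fintype X] [Fintype T] (F : PjCfg (n + 2) X T) {ρ K A d0 γ r0 : ℝ} (hF : F.Ok ρ K A d0 γ)
    (hK : 1 ≤ K) (hA : 1 ≤ A) (hρ : 0 < ρ) (hρ1 : ρ ≤ 1) (hd0 : 0 < d0) (hγ : 0 < γ) (hr0 : ρ ≤ r0) (hr1 : r0 ≤ 1)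
    (hsmall : ((n + 3 : ℕ) : ℝ) * (K * r0 ^ γ) ≤ K⁻¹ ^ (n + 3) / 2) :
    ∃ (μ' : X → ℝ) (ν' : T → ℝ) (a0 a1 : X → ℝ) (sl : T → ℝ) (G : Finset (X × T)),
      PjPl ρ (pjW n K A d0 γ (pjL A r0 (n + 3))) (pjL A r0 (n + 3) * A) d0 γ μ' ν' a0 a1 sl G := by
  have hr0p : 0 < r0 := hρ.trans_le hr0
  have hK0 : 0 < K := by linarith
  have hA0 : 0 < A := by linarith
  have hL : 1 ≤ pjL A r0 (n + 3) := pj_L_one_le hA hr0p hr1 (n + 3)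
  obtain ⟨hE, hK2, hKH, hεeq⟩ := pj_const_ge n hK hA hd0.le hL
  obtain ⟨w1, w2, w3, w4, w5⟩ := pj_W_ge n (γ := γ) hK hA hd0.le hL
  have htag := fun (β : Fin (n + 2) → T) (c : Fin (n + 2) → Fin (n + 2) → ℝ) (D0 : PjDual (n + 2) A (pjL A r0 (n + 2)) (fun i => F.dir (β i)) c)
    (i0 i1 : Fin (n + 2)) (h01 : i0 ≠ i1) (b : T) (hb : r0 / A ≤ |c i0 ⬝ᵥ F.dir b|) =>
      pj_core_tag n F hF hK hA hρ hρ1 hd0.le hr0p hr1 β D0 i0 i1 h01 b hb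
  have hLmono : pjL A r0 (n + 2) ≤ pjL A r0 (n + 3) := pj_L_mono hA hr0p hr1 (by omega)
  obtain ⟨L, hLdef⟩ : ∃ L, L = pjL A r0 (n + 3) := ⟨_, rfl⟩
  rw [← hLdef] at hL hK2 hKH hεeq w1 w2 w3 w4 w5 htag hLmono ⊢
  obtain ⟨W, hWdef⟩ : ∃ W, W = pjW n K A d0 γ L := ⟨_, rfl⟩
  rw [← hWdef] at w1 w2 w3 w4 w5 ⊢
  obtain ⟨KH, hKHdef⟩ : ∃ KH, KH = pjKH n K A d0 L := ⟨_, rfl⟩
  rw [← hKHdef] at w3 w4 hKH htag
  obtain ⟨ε, hεdef⟩ : ∃ ε, ε = (8 * ((n + 3 : ℕ) : ℝ) * K ^ (n + 3))⁻¹ := ⟨_, rfl⟩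
  rw [← hεdef] at hεeq htag
  have hε0 : 0 ≤ ε := by rw [hεdef]; positivity
  have ht0 : 0 ≤ K * r0 ^ γ := by positivity
  have hKi : 0 < K⁻¹ ^ (n + 3) := by positivity
  have hρd : 0 < ρ ^ (-d0) := Real.rpow_pos_of_pos hρ _
  have hρd1 : 1 ≤ ρ ^ (-d0) := Real.one_le_rpow_of_pos_of_le_one_of_nonpos hρ hρ1 (by linarith)
  have hW0 : 0 < W := lt_of_lt_of_le (by positivity) w5
  -- 1
  have hsm' : ((n + 2 : ℕ) : ℝ) * (K * r0 ^ γ) < K⁻¹ ^ (n + 3) := by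
    have : ((n + 2 : ℕ) : ℝ) * (K * r0 ^ γ) ≤ ((n + 3 : ℕ) : ℝ) * (K * r0 ^ γ) := by
      refine mul_le_mul_of_nonneg_right ?_ ht0
      push_cast; linarith
    linarith
  obtain ⟨β, c, D0, hΦ⟩ := pj_select n F hF hK hγ.le hA hρ hr0 hr1 hsm'
  have D : PjDual (n + 2) A L (fun i => F.dir (β i)) c := D0.mono le_rfl hLmono
  -- 2
  obtain ⟨i0, i1, h01, hSg⟩ := pj_tags n F hF hK hγ.le hA hρ hr0 β D hΦ
  have hSg' : K⁻¹ ^ (n + 3) / 4 ≤ ∑ b with r0 / A ≤ |c i0 ⬝ᵥ F.dir b| ∧ |c i1 ⬝ᵥ F.dir b| ≤ |c i0 ⬝ᵥ F.dir b|,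
        F.ν b * ∑ x with (∀ i, (x, β i) ∈ F.S) ∧ (x, b) ∈ F.S, F.μ x := by
    refine le_trans ?_ hSg
    push_cast at hsmall ⊢
    linarith
  -- 3
  have hsl := fun i => pj_slices n F hF hK hA hρ hρ1 hd0.le hL (by linarith : 0 < pjK2 n K A d0 L) β D i
  choose H hHc hHl using hsl
  have hHc' : ∀ i, ((H i).card : ℝ) ≤ KH * ρ ^ (-d0) := fun i => by rw [hKHdef]; exact hHc i
  have hHl' : ∀ i, ∑ x with (∀ i, (x, β i) ∈ F.S) ∧ ⌊(c i ⬝ᵥ F.pt x) / ρ⌋ ∉ H i, F.μ x ≤ ε := fun i => by rw [← hεeq]; exact hHl i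
  -- 4
  obtain ⟨Tg, hTg⟩ : ∃ Tg : T → Prop, Tg = fun b => r0 / A ≤ |c i0 ⬝ᵥ F.dir b| ∧ |c i1 ⬝ᵥ F.dir b| ≤ |c i0 ⬝ᵥ F.dir b| := ⟨_, rfl⟩
  obtain ⟨sl, hsldef⟩ : ∃ sl : T → ℝ, sl = fun b => if Tg b then (c i1 ⬝ᵥ F.dir b) / (c i0 ⬝ᵥ F.dir b) else 0 := ⟨_, rfl⟩
  have hstep4 : ∀ b, ∃ Hb : Finset ℤ, (Hb.card : ℝ) ≤ KH * ρ ^ (-d0) ∧ (Tg b →
      ∑ x with (∀ i, (x, β i) ∈ F.S) ∧ (x, b) ∈ F.S ∧ ⌊(c i1 ⬝ᵥ F.pt x - sl b * (c i0 ⬝ᵥ F.pt x)) / ρ⌋ ∉ Hb, F.μ x ≤ ε) := by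
    intro b
    by_cases hb : Tg b
    · have hb' := hb
      rw [hTg] at hb'
      obtain ⟨Hb, h1, h2⟩ := htag β c D0 i0 i1 h01 b hb'.1
      refine ⟨Hb, h1, fun _ => ?_⟩
      have : sl b = (c i1 ⬝ᵥ F.dir b) / (c i0 ⬝ᵥ F.dir b) := by rw [hsldef]; exact if_pos hb
      rw [this]
      exact h2
    · exact ⟨∅, by simpa using (by positivity : 0 ≤ KH * ρ ^ (-d0)), fun h => absurd h hb⟩
  choose Hb hHbc hHbl using hstep4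
  have hSg2 : K⁻¹ ^ (n + 3) / 4 ≤ ∑ b with Tg b, F.ν b * ∑ x with (∀ i, (x, β i) ∈ F.S) ∧ (x, b) ∈ F.S, F.μ x := by
    refine hSg'.trans (le_of_eq (Finset.sum_congr ?_ fun _ _ => rfl))
    ext b
    simp only [Finset.mem_filter, Finset.mem_univ, true_and, hTg]
  -- 5
  obtain ⟨Gd, hGd⟩ : ∃ Gd : X → Prop, Gd = fun x => (∀ i, (x, β i) ∈ F.S) ∧ ∀ i, ¬ ⌊(c i ⬝ᵥ F.pt x) / ρ⌋ ∉ H i := ⟨_, rfl⟩
  have hslTg : ∀ b, Tg b → sl b = (c i1 ⬝ᵥ F.dir b) / (c i0 ⬝ᵥ F.dir b) := fun b hb => by rw [hsldef]; exact if_pos hb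
  refine ⟨fun x => if Gd x then F.μ x else 0, fun b => if Tg b then F.ν b else 0, fun x => c i0 ⬝ᵥ F.pt x, fun x => c i1 ⬝ᵥ F.pt x, sl,
    F.S.filter (fun p => ((∀ i, (p.1, β i) ∈ F.S) ∧ ∀ i, ¬ ⌊(c i ⬝ᵥ F.pt p.1) / ρ⌋ ∉ H i) ∧ Tg p.2 ∧
      ¬ ⌊(c i1 ⬝ᵥ F.pt p.1 - sl p.2 * (c i0 ⬝ᵥ F.pt p.1)) / ρ⌋ ∉ Hb p.2), ?_⟩
  refine ⟨?_, ?_, ?_, ?_, ?_, ?_, ?_, ?_, ?_, ?_, ?_, ?_, ?_⟩
  · intro x
    split_ifs
    exacts [hF.μ0 x, le_rfl]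
  · intro b
    split_ifs
    exacts [hF.ν0 b, le_rfl]
  · refine le_trans (Finset.sum_le_sum fun x _ => ?_) hF.μ1
    split_ifs
    exacts [le_rfl, hF.μ0 x]
  · refine le_trans (Finset.sum_le_sum fun b _ => ?_) hF.ν1
    split_ifs
    exacts [le_rfl, hF.ν0 b]
  · exact fun x => D.coord_le i0 (F.pt x) A hA0.le (hF.hpt x)
  · exact fun x => D.coord_le i1 (F.pt x) A hA0.le (hF.hpt x)
  · intro b
    by_cases hb : Tg b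
    · rw [hslTg b hb, abs_div]
      rw [hTg] at hb
      exact div_le_one_of_le₀ hb.2 (abs_nonneg _)
    · have : sl b = 0 := by rw [hsldef]; exact if_neg hb
      rw [this, abs_zero]
      exact zero_le_one
  · intro z r hr hr1
    have hr0' : 0 < r := hρ.trans_le hr
    rw [pj_sum_ite]
    refine le_trans (pj_sum_mono F.ν hF.ν0 _ (fun b => |c i1 ⬝ᵥ F.dir b - z * (c i0 ⬝ᵥ F.dir b)| ≤ r * |c i0 ⬝ᵥ F.dir b|) fun b hb => ?_)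
      (le_trans (pj_slope n F hF (hF.strip_hom hK hγ.le) hK hA hρ hγ.le hL D i0 i1 h01 z r hr)
        (mul_le_mul_of_nonneg_right w1 (Real.rpow_nonneg hr0'.le _)))
    obtain ⟨hb1, hb2⟩ := hb
    rw [hslTg b hb2, Real.dist_eq] at hb1
    rw [hTg] at hb2
    have hq0 : 0 < |c i0 ⬝ᵥ F.dir b| := lt_of_lt_of_le (div_pos hr0p hA0) hb2.1
    have hq0' : c i0 ⬝ᵥ F.dir b ≠ 0 := abs_pos.1 hq0
    have e : c i1 ⬝ᵥ F.dir b - z * (c i0 ⬝ᵥ F.dir b) = ((c i1 ⬝ᵥ F.dir b) / (c i0 ⬝ᵥ F.dir b) - z) * (c i0 ⬝ᵥ F.dir b) := by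
      field_simp
    rw [e, abs_mul]
    exact mul_le_mul_of_nonneg_right hb1 hq0.le
  · intro z r hr hr1
    have hr0' : 0 < r := hρ.trans_le hr
    rw [pj_sum_ite]
    refine le_trans (pj_sum_mono F.μ hF.μ0 _ (fun x => (x, β i0) ∈ F.S ∧ |c i0 ⬝ᵥ F.pt x - z| ≤ r) fun x hx => ?_)
      (le_trans (pj_marg n F hF hK hA hρ hd0.le hL D i0 (β i0) rfl z r hr hr1)
        (mul_le_mul_of_nonneg_right w2 (Real.rpow_nonneg hr0'.le _)))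
    obtain ⟨hx1, hx2⟩ := hx
    rw [hGd] at hx2
    rw [Real.dist_eq] at hx1
    exact ⟨hx2.1 i0, hx1⟩
  · intro k0 k1
    rw [pj_sum_ite]
    have hN : 1 ≤ KH * ρ ^ (-d0) := by nlinarith
    refine le_trans (pj_sum_mono F.μ hF.μ0 _ (fun x => (∀ i, ⌊(c i ⬝ᵥ F.pt x) / ρ⌋ ∈ H i) ∧ ⌊(c i0 ⬝ᵥ F.pt x) / ρ⌋ = k0 ∧
        ⌊(c i1 ⬝ᵥ F.pt x) / ρ⌋ = k1) fun x hx => ?_)
      (le_trans (pj_fibre n F hF hK hA hρ hd0.le D H hN hHc' i0 i1 h01 k0 k1) ?_)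
    · obtain ⟨hx1, hx2⟩ := hx
      rw [hGd] at hx2
      exact ⟨fun i => not_not.1 (hx2.2 i), hx1⟩
    · rw [pj_core_cell_alg n hρ hA]
      exact mul_le_mul_of_nonneg_right w3 (Real.rpow_nonneg hρ.le _)
  · refine ⟨H i0, (hHc' i0).trans (mul_le_mul_of_nonneg_right w4 hρd.le), fun x hx => ?_⟩
    have hx' : Gd x := by
      by_contra hc
      exact hx (if_neg hc)
    rw [hGd] at hx'
    exact not_not.1 (hx'.2 i0)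
  · intro b
    refine ⟨Hb b, (hHbc b).trans (mul_le_mul_of_nonneg_right w4 hρd.le), fun x hx => ?_⟩
    exact not_not.1 (Finset.mem_filter.1 hx).2.2.2
  · have hgm := pj_graph_mass (n + 2) F.μ F.ν F.S hF.μ0 hF.ν0 hF.ν1 (fun x => ∀ i, (x, β i) ∈ F.S)
      (fun i x => ⌊(c i ⬝ᵥ F.pt x) / ρ⌋ ∉ H i) Tg (fun b x => ⌊(c i1 ⬝ᵥ F.pt x - sl b * (c i0 ⬝ᵥ F.pt x)) / ρ⌋ ∉ Hb b) ε hε0
      (fun i => by convert hHl' i) (fun b hb => by convert hHbl b hb)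
    have e1 : ∑ p ∈ F.S.filter (fun p => ((∀ i, (p.1, β i) ∈ F.S) ∧ ∀ i, ¬ ⌊(c i ⬝ᵥ F.pt p.1) / ρ⌋ ∉ H i) ∧ Tg p.2 ∧
        ¬ ⌊(c i1 ⬝ᵥ F.pt p.1 - sl p.2 * (c i0 ⬝ᵥ F.pt p.1)) / ρ⌋ ∉ Hb p.2), (if Gd p.1 then F.μ p.1 else 0) * (if Tg p.2 then F.ν p.2 else 0)
        = ∑ p ∈ F.S.filter (fun p => ((∀ i, (p.1, β i) ∈ F.S) ∧ ∀ i, ¬ ⌊(c i ⬝ᵥ F.pt p.1) / ρ⌋ ∉ H i) ∧ Tg p.2 ∧
        ¬ ⌊(c i1 ⬝ᵥ F.pt p.1 - sl p.2 * (c i0 ⬝ᵥ F.pt p.1)) / ρ⌋ ∉ Hb p.2), F.μ p.1 * F.ν p.2 := by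
      refine Finset.sum_congr rfl fun p hp => ?_
      have hp' := (Finset.mem_filter.1 hp).2
      have h1 : Gd p.1 := by rw [hGd]; exact hp'.1
      rw [if_pos h1, if_pos hp'.2.1]
    rw [e1]
    have e2 : (((n + 2 : ℕ) : ℝ) + 1) * ε = K⁻¹ ^ (n + 3) / 8 := by
      rw [hεdef, inv_pow]
      push_cast
      field_simp
      ring
    have e3 : W⁻¹ ≤ K⁻¹ ^ (n + 3) / 8 := by
      rw [inv_pow, div_eq_mul_inv, ← mul_inv, mul_comm]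
      exact inv_anti₀ (by positivity) w5
    have hgm2 : ∀ s t : ℝ, s - (((n + 2 : ℕ) : ℝ) + 1) * ε ≤ t → K⁻¹ ^ (n + 3) / 4 ≤ s → W⁻¹ ≤ t :=
      fun s t h1 h2 => by linarith
    exact le_of_le_of_eq (hgm2 _ _ hgm (by convert hSg2)) (by congr!)

end Claimed.Agent.R257
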