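import Mathlib

/-!
# ROW 257, package FR3, unit PROJ, file 2: DUAL BASES WITH EXPLICIT BOUNDS, GAUSS PIVOT      (architect helper121)

MATHLIB ONLY, PAPER-FREE.   No determinants.  `u` = basis of `ℝ^d` (sup norm `≤ A`), `c` = the coordinate functionals (`ℓ¹` norm `≤ L`).
-/

set_option autoImplicit false

namespace Claimed.Agent.R257

open Finset Matrix

/-- dual pair of bases of `ℝ^d` with explicit bounds -/
structure PjDual (d : ℕ) (A L : ℝ) (u c : Fin d → Fin d → ℝ) : Prop where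
  bi : ∀ i j, c i ⬝ᵥ u j = if i = j then 1 else 0
  full : ∀ x : Fin d → ℝ, ∑ i, (c i ⬝ᵥ x) • u i = x
  hu : ∀ i l, |u i l| ≤ A
  hc : ∀ i, ∑ l, |c i l| ≤ L

/-- `|w · x| ≤ ‖w‖₁ ‖x‖_∞` -/
theorem pj_dot_le {d : ℕ} (w x : Fin d → ℝ) (r : ℝ) (hx : ∀ l, |x l| ≤ r) : |w ⬝ᵥ x| ≤ (∑ l, |w l|) * r := by
  rw [dotProduct, Finset.sum_mul]
  refine (Finset.abs_sum_le_sum_abs _ _).trans (Finset.sum_le_sum fun l _ => ?_)
  rw [abs_mul]
  exact mul_le_mul_of_nonneg_left (hx l) (abs_nonneg _)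

theorem pj_dual_std (d : ℕ) : PjDual d 1 1 (fun i => Pi.single i 1) (fun i => Pi.single i 1) := by
  refine ⟨fun i j => ?_, fun x => ?_, fun i l => ?_, fun i => ?_⟩
  · rw [single_dotProduct, one_mul, Pi.single_apply]
  · funext l
    simp [Finset.sum_apply, Pi.single_apply]
  · rw [Pi.single_apply]; split_ifs <;> simp
  · have : ∀ l, |(Pi.single i (1 : ℝ) : Fin d → ℝ) l| = if l = i then 1 else 0 := by
      intro l; rw [Pi.single_apply]; split_ifs <;> simp
    simp [this]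

theorem PjDual.mono {d : ℕ} {A L A' L' : ℝ} {u c : Fin d → Fin d → ℝ} (D : PjDual d A L u c) (hA : A ≤ A') (hL : L ≤ L') :
    PjDual d A' L' u c :=
  ⟨D.bi, D.full, fun i l => (D.hu i l).trans hA, fun i => (D.hc i).trans hL⟩

/-- coordinates are bounded -/
theorem PjDual.coord_le {d : ℕ} {A L : ℝ} {u c : Fin d → Fin d → ℝ} (D : PjDual d A L u c) (i : Fin d) (x : Fin d → ℝ) (r : ℝ)
    (hr : 0 ≤ r) (hx : ∀ l, |x l| ≤ r) : |c i ⬝ᵥ x| ≤ L * r :=
  (pj_dot_le _ _ _ hx).trans (mul_le_mul_of_nonneg_right (D.hc i) hr)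

/-- a functional which takes the value `1` on a basis vector is not small -/
theorem PjDual.one_le {d : ℕ} {A L : ℝ} {u c : Fin d → Fin d → ℝ} (D : PjDual d A L u c) (w : Fin d → ℝ) (j : Fin d)
    (hw : w ⬝ᵥ u j = 1) : 1 ≤ (∑ l, |w l|) * A := by
  have := pj_dot_le w (u j) A (D.hu j)
  rwa [hw, abs_one] at this

theorem PjDual.one_le_LA {d : ℕ} {A L : ℝ} {u c : Fin d → Fin d → ℝ} (D : PjDual d A L u c) (j : Fin d) (hA : 0 ≤ A) : 1 ≤ L * A :=
  (D.one_le (c j) j (by simp [D.bi])).trans (mul_le_mul_of_nonneg_right (D.hc j) hA)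

/-- small coordinates, small vector -/
theorem PjDual.ball {d : ℕ} {A L : ℝ} {u c : Fin d → Fin d → ℝ} (D : PjDual d A L u c) (x : Fin d → ℝ) (r : ℝ)
    (hx : ∀ i, |c i ⬝ᵥ x| ≤ r) (l : Fin d) : |x l| ≤ d * (r * A) := by
  have h := congrFun (D.full x) l
  rw [Finset.sum_apply] at h
  rw [← h]
  refine (Finset.abs_sum_le_sum_abs _ _).trans ?_
  have : ∀ i ∈ (Finset.univ : Finset (Fin d)), |((c i ⬝ᵥ x) • u i) l| ≤ r * A := by
    intro i _
    rw [Pi.smul_apply, smul_eq_mul, abs_mul]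
    exact mul_le_mul (hx i) (D.hu i l) (abs_nonneg _) ((abs_nonneg _).trans (hx i))
  refine (Finset.sum_le_card_nsmul _ _ _ this).trans ?_
  simp

/-- the Gauss pivot of the coordinate functionals: the basis vector `u p` is replaced by `b` -/
noncomputable def pjPiv {d : ℕ} (c : Fin d → Fin d → ℝ) (p : Fin d) (b : Fin d → ℝ) : Fin d → Fin d → ℝ :=
  fun i => if i = p then (c p ⬝ᵥ b)⁻¹ • c p else c i - ((c i ⬝ᵥ b) / (c p ⬝ᵥ b)) • c p

/-- **Gauss pivot.**
PLAN.  `β_i = c i ⬝ᵥ b`, `β_p ≠ 0`, `b = ∑ β_i u_i` (`D.full b`).   `bi`: four cases (`Function.update_apply`, `smul_dotProduct`, `sub_dotProduct`, `D.bi`).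
`full`: `∑_i (c'_i·x) u'_i`: split off `i = p` (`Finset.sum_erase`/`Fintype.sum_eq_add_sum_compl` or `Finset.add_sum_erase`), insert `b = ∑ β_i u_i`.
`hu`: `Function.update_apply`.   `hc`: `i = p`: `‖c_p‖₁/|β_p| ≤ L/τ ≤ L A L/τ` (`D.one_le_LA`);  `i ≠ p`: `‖c_i‖₁ + |β_i|/|β_p| ‖c_p‖₁ ≤ L + (L A/τ) L` (`D.coord_le`). -/
theorem PjDual.piv {d : ℕ} {A L τ : ℝ} {u c : Fin d → Fin d → ℝ} (D : PjDual d A L u c) (hA : 0 ≤ A) (p : Fin d) (b : Fin d → ℝ)
    (hb : ∀ l, |b l| ≤ A) (hτ : 0 < τ) (hp : τ ≤ |c p ⬝ᵥ b|) :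
    PjDual d A (L + L * A * L / τ) (Function.update u p b) (pjPiv c p b) := by
  have hβ : c p ⬝ᵥ b ≠ 0 := by
    intro h; rw [h, abs_zero] at hp; linarith
  have hL0 : 0 ≤ L := (Finset.sum_nonneg fun l _ => abs_nonneg _).trans (D.hc p)
  have hLA : 1 ≤ L * A := D.one_le_LA p hA
  refine ⟨fun i j => ?_, fun x => ?_, fun i l => ?_, fun i => ?_⟩
  · unfold pjPiv
    by_cases hi : i = p <;> by_cases hj : j = p
    · subst hi; subst hj
      simp [smul_dotProduct, hβ]
    · subst hi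
      have : ¬ i = j := fun h => hj h.symm
      simp [smul_dotProduct, Function.update_of_ne hj, D.bi, this]
    · subst hj
      simp only [hi, if_false, Function.update_self, sub_dotProduct, smul_dotProduct, smul_eq_mul]
      field_simp
      ring
    · have hpj : ¬ p = j := fun h => hj h.symm
      simp only [hi, if_false, Function.update_of_ne hj, sub_dotProduct, smul_dotProduct, smul_eq_mul, D.bi, hpj, mul_zero,
        sub_zero]
  · have hx := D.full x
    have hb' := D.full b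
    rw [← Finset.add_sum_erase _ _ (Finset.mem_univ p)] at hx hb' ⊢
    have h1 : ∀ i ∈ (Finset.univ : Finset (Fin d)).erase p, (pjPiv c p b i ⬝ᵥ x) • Function.update u p b i
        = (c i ⬝ᵥ x) • u i - ((c p ⬝ᵥ x) / (c p ⬝ᵥ b)) • ((c i ⬝ᵥ b) • u i) := by
      intro i hi
      have hi' : i ≠ p := Finset.ne_of_mem_erase hi
      unfold pjPiv
      simp only [hi', if_false, Function.update_of_ne hi', sub_dotProduct, smul_dotProduct, smul_eq_mul, sub_smul, smul_smul]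
      congr 2
      field_simp
    rw [Finset.sum_congr rfl h1, Finset.sum_sub_distrib, ← Finset.smul_sum]
    have h2 : ∑ i ∈ (Finset.univ : Finset (Fin d)).erase p, (c i ⬝ᵥ b) • u i = b - (c p ⬝ᵥ b) • u p := by
      rw [eq_sub_iff_add_eq, add_comm]; exact hb'
    rw [h2]
    unfold pjPiv
    simp only [if_true, Function.update_self, smul_dotProduct, smul_eq_mul]
    have h3 : ((c p ⬝ᵥ x) / (c p ⬝ᵥ b)) • (b - (c p ⬝ᵥ b) • u p) = ((c p ⬝ᵥ b)⁻¹ * (c p ⬝ᵥ x)) • b - (c p ⬝ᵥ x) • u p := by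
      rw [smul_sub, smul_smul]
      congr 2
      · field_simp
      · field_simp
    rw [h3]
    refine Eq.trans ?_ hx
    abel
  · by_cases hi : i = p
    · subst hi; simpa using hb l
    · rw [Function.update_of_ne hi]; exact D.hu i l
  · have hdiv : L / τ ≤ L * A * L / τ := by
      apply div_le_div_of_nonneg_right _ hτ.le
      nlinarith
    by_cases hi : i = p
    · subst hi
      have : ∀ l, |pjPiv c i b i l| = |c i ⬝ᵥ b|⁻¹ * |c i l| := by
        intro l; simp [pjPiv, abs_mul, abs_inv]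
      simp only [this, ← Finset.mul_sum]
      have h1 : |c i ⬝ᵥ b|⁻¹ ≤ τ⁻¹ := inv_anti₀ hτ hp
      calc |c i ⬝ᵥ b|⁻¹ * ∑ l, |c i l| ≤ τ⁻¹ * L :=
            mul_le_mul h1 (D.hc i) (Finset.sum_nonneg fun l _ => abs_nonneg _) (inv_nonneg.2 hτ.le)
        _ = L / τ := by rw [div_eq_mul_inv, mul_comm]
        _ ≤ L + L * A * L / τ := by linarith
    · have h0 : ∀ l, |pjPiv c p b i l| ≤ |c i l| + (L * A / τ) * |c p l| := by
        intro l
        simp only [pjPiv, hi, if_false, Pi.sub_apply, Pi.smul_apply, smul_eq_mul]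
        refine (abs_sub _ _).trans ?_
        rw [abs_mul, abs_div]
        have h1 : |c i ⬝ᵥ b| ≤ L * A := D.coord_le i b A hA hb
        have h2 : |c i ⬝ᵥ b| / |c p ⬝ᵥ b| ≤ L * A / τ := div_le_div₀ (by positivity) h1 hτ hp
        have := mul_le_mul_of_nonneg_right h2 (abs_nonneg (c p l))
        linarith
      refine (Finset.sum_le_sum fun l _ => h0 l).trans ?_
      rw [Finset.sum_add_distrib, ← Finset.mul_sum]
      have h3 : (L * A / τ) * ∑ l, |c p l| ≤ (L * A / τ) * L := mul_le_mul_of_nonneg_left (D.hc p) (by positivity)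
      have h4 : (L * A / τ) * L = L * A * L / τ := by ring
      linarith [D.hc i]

end Claimed.Agent.R257
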