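import Claimed.Agent.RW.Export
import Claimed.Agent.R257.Proj.Comb
import Claimed.Agent.R257.Proj.Dual

/-!
# ROW 257, package FR3, unit PROJ, file 3: THE CONFIGURATION      (architect helper121)

PAPER-FREE.  PROJ(d) replaces the box He20 (rank `d-1` projections in `ℝ^d`; H frame.tex l.1330, `p:projection`); reduction to `RW.ex_W1` = report 847, X3.
`d = n+2`.  A finite weighted point population `(pt, μ)` in `ℝ^d` (sup norm), a finite weighted population of direction tags `(dir, ν)`, an incidence set `S`.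

EXIT OF THE UNIT: `pj_main` (file `Main.lean`): for `0 < d0 < 1`, `γ > 0` there is `η > 0` such that no configuration is `Ok` with loss `K = ρ^(-η)`, `ρ` small.

MAP OF THE PROOF (`N = ρ^(-d0)`, `α = d d0`; all losses are powers of `K`; `r0 = K^(-m)`):
* `Comb.lean`    discrete Loomis-Whitney, heavy slices.                         * `Dual.lean`   dual bases, Gauss pivot (no determinants).
* `Select.lean`  `pj_select`: tags `β_0..β_{d-1}` whose directions form a basis with dual basis `c` of size `L = pjL A r0 d`, and the common neighbours still see a lot of tags.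
* `Slices.lean`  `pj_slices`: in such a basis, up to small mass, the label `⌊c_j·x/ρ⌋` takes `≤ K^C N` values;  `pj_marg`: the law of `c_j·x` is Frostman `d0`;  `pj_slope`: slopes are Frostman `γ`.
* `Planar.lean`  `pj_planar`: an abstract planar configuration (H1)-(H6) contradicts `RW.ex_W1`.
* `Core.lean`    `pj_core`: `Ok` gives (H1)-(H6).                               * `Main.lean`   numerics.
-/

set_option autoImplicit false

namespace Claimed.Agent.R257

open Finset Matrix Claimed.Agent.RW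
open scoped Classical

/-- the data of PROJ(d) -/
structure PjCfg (d : ℕ) (X T : Type) where
  μ : X → ℝ
  ν : T → ℝ
  pt : X → Fin d → ℝ
  dir : T → Fin d → ℝ
  S : Finset (X × T)

/-- the hypotheses of PROJ(d) at the scale `ρ` with loss `K`: points Frostman `d d0`, directions avoid hyperplane strips with exponent `γ`, incidence mass `≥ 1/K`,
and for every tag `b` and EVERY scale `r ∈ [ρ,1]` the neighbours of `b` are covered by `K r^(-(d-1) d0)` tubes of radius `r` (sup norm) in the direction `dir b`. -/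
structure PjCfg.Ok {d : ℕ} {X T : Type} [Fintype X] [Fintype T] (F : PjCfg d X T) (ρ K A d0 γ : ℝ) : Prop where
  μ0 : ∀ x, 0 ≤ F.μ x
  ν0 : ∀ b, 0 ≤ F.ν b
  μ1 : ∑ x, F.μ x ≤ 1
  ν1 : ∑ b, F.ν b ≤ 1
  hpt : ∀ x l, |F.pt x l| ≤ A
  hdir : ∀ b l, |F.dir b l| ≤ A
  frost : KfFrost F.μ F.pt K (d * d0) ρ
  strip : ∀ w : Fin d → ℝ, ∑ l, |w l| = 1 → ∀ r : ℝ, ρ ≤ r → r ≤ 1 → ∑ b with |w ⬝ᵥ F.dir b| ≤ r, F.ν b ≤ K * r ^ γ
  mass : K⁻¹ ≤ ∑ p ∈ F.S, F.μ p.1 * F.ν p.2
  tube : ∀ (b : T) (r : ℝ), ρ ≤ r → r ≤ 1 → ∃ cov : Finset (Fin d → ℝ), (cov.card : ℝ) ≤ K * r ^ (-((d - 1 : ℝ) * d0)) ∧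
    ∀ x, (x, b) ∈ F.S → ∃ z ∈ cov, ∃ t : ℝ, ∀ l, |F.pt x l - z l - t * F.dir b l| ≤ r

/-- the `ν`-mass of the tags incident to `x` -/
noncomputable def PjCfg.deg {d : ℕ} {X T : Type} [Fintype T] (F : PjCfg d X T) (x : X) : ℝ := ∑ b with (x, b) ∈ F.S, F.ν b

/-- the size of the dual basis after `j` pivots with pivot `≥ r0/A` -/
noncomputable def pjL (A r0 : ℝ) (j : ℕ) : ℝ := (2 * A ^ 2 / r0) ^ (2 ^ j - 1)

/-- the label vector of a point at the scale `ρ` in the coordinates `c` -/
noncomputable def pjLab {d : ℕ} (ρ : ℝ) (c : Fin d → Fin d → ℝ) (x : Fin d → ℝ) : Fin d → ℤ := fun i => ⌊(c i ⬝ᵥ x) / ρ⌋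

end Claimed.Agent.R257
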