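import Claimed.Agent.R257.Proj.Defs

/-!
# ROW 257, package FR3, unit PROJ, file 4: SELECTION OF A BASIS OF TAGS      (architect helper121)

PAPER-FREE.  Sequential exposure: potential `Φ_j = ∑_x μ x 1[(x,β_i) ∈ S, i < j] (deg x)^(d+1-j)`, `Φ_0 ≥ K^(-(d+1))` (Jensen); each step costs one strip event `K r0^γ` and one Gauss pivot.
-/

set_option autoImplicit false

namespace Claimed.Agent.R257

open Finset Matrix Claimed.Agent.RW
open scoped Classical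

theorem pj_L_zero (A r0 : ℝ) : pjL A r0 0 = 1 := by simp [pjL]

theorem pj_q_two_le {A r0 : ℝ} (hA : 1 ≤ A) (hr0 : 0 < r0) (hr1 : r0 ≤ 1) : 2 ≤ 2 * A ^ 2 / r0 := by
  rw [le_div_iff₀ hr0]
  nlinarith

/-- LEAF `L-PJ-S0` (a) -/
theorem pj_L_one_le {A r0 : ℝ} (hA : 1 ≤ A) (hr0 : 0 < r0) (hr1 : r0 ≤ 1) (j : ℕ) : 1 ≤ pjL A r0 j := by
  unfold pjL
  exact one_le_pow₀ (by linarith [pj_q_two_le hA hr0 hr1])

/-- LEAF `L-PJ-S0` (b)  `q = 2A²/r0 ≥ 2`, `pjL (j+1) = q (pjL j)²` (`2^(j+1) - 1 = 1 + 2 (2^j - 1)`), and `L + L²A²/r0 ≤ 2 L² A²/r0` because `r0 ≤ 1 ≤ A² L`. -/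
theorem pj_L_succ {A r0 : ℝ} (hA : 1 ≤ A) (hr0 : 0 < r0) (hr1 : r0 ≤ 1) (j : ℕ) :
    pjL A r0 j + pjL A r0 j * A * pjL A r0 j / (r0 / A) ≤ pjL A r0 (j + 1) := by
  have hL := pj_L_one_le hA hr0 hr1 j
  have hA0 : 0 < A := by linarith
  have e : pjL A r0 (j + 1) = 2 * A ^ 2 / r0 * pjL A r0 j ^ 2 := by
    unfold pjL
    have h1 : 2 ^ (j + 1) - 1 = 1 + (2 ^ j - 1) * 2 := by
      have : 1 ≤ 2 ^ j := Nat.one_le_two_pow
      rw [pow_succ]
      omega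
    rw [h1, pow_add, pow_one, pow_mul]
  rw [e]
  set L := pjL A r0 j
  have h2 : L * A * L / (r0 / A) = A ^ 2 / r0 * L ^ 2 := by
    field_simp
  rw [h2]
  have h3 : 1 ≤ A ^ 2 / r0 := by
    rw [le_div_iff₀ hr0]
    nlinarith
  have h4 : L ≤ A ^ 2 / r0 * L ^ 2 := by nlinarith
  have h5 : 2 * A ^ 2 / r0 * L ^ 2 = A ^ 2 / r0 * L ^ 2 + A ^ 2 / r0 * L ^ 2 := by ring
  linarith

/-- LEAF `L-PJ-S0` (c) -/
theorem pj_L_mono {A r0 : ℝ} (hA : 1 ≤ A) (hr0 : 0 < r0) (hr1 : r0 ≤ 1) {i j : ℕ} (h : i ≤ j) : pjL A r0 i ≤ pjL A r0 j := by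
  unfold pjL
  exact pow_le_pow_right₀ (by linarith [pj_q_two_le hA hr0 hr1])
    (Nat.sub_le_sub_right (Nat.pow_le_pow_right (by norm_num) h) 1)

/-- LEAF `L-PJ-S1` **Jensen for a sub-probability.**  PLAN: `s = ∑ μ`; `s = 0`: all `μ x = 0`.  Else `Real.pow_arith_mean_le_arith_mean_pow` with the weights `μ/s`, multiply by `s^(m+1) ≤ s`. -/
theorem pj_jensen {X : Type} [Fintype X] (μ z : X → ℝ) (hμ0 : ∀ x, 0 ≤ μ x) (hμ1 : ∑ x, μ x ≤ 1) (hz : ∀ x, 0 ≤ z x) (m : ℕ) :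
    (∑ x, μ x * z x) ^ (m + 1) ≤ ∑ x, μ x * z x ^ (m + 1) := by
  have h := Real.pow_arith_mean_le_arith_mean_pow (Finset.univ : Finset (Option X))
    (fun o => o.elim (1 - ∑ x, μ x) μ) (fun o => o.elim 0 z)
    (by
      rintro (_ | x) _
      · simpa using hμ1
      · exact hμ0 x)
    (by simp [Fintype.sum_option])
    (by
      rintro (_ | x) _
      · exact le_rfl
      · exact hz x) (m + 1)
  simpa [Fintype.sum_option] using h

theorem PjCfg.deg_nonneg {d : ℕ} {X T : Type} [Fintype X] [Fintype T] {F : PjCfg d X T} {ρ K A d0 γ : ℝ} (hF : F.Ok ρ K A d0 γ) (x : X) :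
    0 ≤ F.deg x := Finset.sum_nonneg fun b _ => hF.ν0 b

theorem PjCfg.deg_le_one {d : ℕ} {X T : Type} [Fintype X] [Fintype T] {F : PjCfg d X T} {ρ K A d0 γ : ℝ} (hF : F.Ok ρ K A d0 γ) (x : X) :
    F.deg x ≤ 1 :=
  (Finset.sum_le_sum_of_subset_of_nonneg (Finset.filter_subset _ _) fun b _ _ => hF.ν0 b).trans hF.ν1

/-- LEAF `L-PJ-S2` **strip bound, homogeneous form**: `w ≠ 0` arbitrary, all radii `≥ ρ`.
PLAN. `s = ∑|w l| > 0`, `ŵ = s⁻¹ • w` has `ℓ¹` norm `1`, `|ŵ·v| = |w·v|/s` (`smul_dotProduct`).  `r ≤ 1`: `hF.strip`.  `r > 1`: `∑ ν ≤ 1 ≤ K r^γ` (`Real.one_le_rpow`). -/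
theorem PjCfg.Ok.strip_hom {d : ℕ} {X T : Type} [Fintype X] [Fintype T] {F : PjCfg d X T} {ρ K A d0 γ : ℝ} (hF : F.Ok ρ K A d0 γ)
    (hK : 1 ≤ K) (hγ : 0 ≤ γ) (w : Fin d → ℝ) (hw : 0 < ∑ l, |w l|) (r : ℝ) (hr : ρ ≤ r) :
    ∑ b with |w ⬝ᵥ F.dir b| ≤ r * ∑ l, |w l|, F.ν b ≤ K * r ^ γ := by
  by_cases hr1 : r ≤ 1
  · have h1 : ∑ l, |((∑ l, |w l|)⁻¹ • w) l| = 1 := by
      simp only [Pi.smul_apply, smul_eq_mul, abs_mul, abs_inv, abs_of_pos hw, ← Finset.mul_sum]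
      exact inv_mul_cancel₀ hw.ne'
    have h2 := hF.strip ((∑ l, |w l|)⁻¹ • w) h1 r hr hr1
    refine le_trans (le_of_eq ?_) h2
    refine Finset.sum_congr ?_ fun _ _ => rfl
    ext b
    simp only [Finset.mem_filter, Finset.mem_univ, true_and, smul_dotProduct, smul_eq_mul, abs_mul, abs_inv, abs_of_pos hw]
    rw [inv_mul_le_iff₀ hw, mul_comm]
  · rw [not_le] at hr1
    have h1 : ∑ b with |w ⬝ᵥ F.dir b| ≤ r * ∑ l, |w l|, F.ν b ≤ 1 :=
      (Finset.sum_le_sum_of_subset_of_nonneg (Finset.filter_subset _ _) fun b _ _ => hF.ν0 b).trans hF.ν1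
    have h2 : 1 ≤ r ^ γ := Real.one_le_rpow hr1.le hγ
    nlinarith

/-- LEAF `L-PJ-S3` **one step of the selection.**
PLAN.  `deg x^(m+1) = deg x^m ∑_{b : (x,b) ∈ S} ν b`; exchange the sums (`Finset.sum_comm'` or indicator form + `Finset.sum_comm`): `Φ = ∑_b ν b Ψ b`, `Ψ b = ∑_{x : P x ∧ (x,b) ∈ S} μ x deg x^m ∈ [0,1]`.
Tags with `|w·dir b| ≤ r0 ‖w‖₁` contribute `≤ K r0^γ` (`strip_hom`, `Ψ ≤ 1`).  The set `E` of the other tags is nonempty (otherwise `Φ ≤ K r0^γ`); take `b ∈ E` maximising `Ψ` (`Finset.exists_max_image`):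
`Φ - K r0^γ ≤ ∑_{E} ν Ψ ≤ Ψ b ∑ ν ≤ Ψ b`.   `|w·dir b| > r0 ‖w‖₁ ≥ r0/A` by `hw`. -/
theorem pj_select_step {d : ℕ} {X T : Type} [Fintype X] [Fintype T] (F : PjCfg d X T) {ρ K A d0 γ r0 : ℝ} (hF : F.Ok ρ K A d0 γ)
    (hK : 1 ≤ K) (hγ : 0 ≤ γ) (hA : 0 < A) (hρ : 0 < ρ) (hr0 : ρ ≤ r0) (P : X → Prop) (m : ℕ) (w : Fin d → ℝ)
    (hw : 1 ≤ (∑ l, |w l|) * A) (hpos : K * r0 ^ γ < ∑ x with P x, F.μ x * F.deg x ^ (m + 1)) :
    ∃ b : T, r0 / A ≤ |w ⬝ᵥ F.dir b| ∧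
      (∑ x with P x, F.μ x * F.deg x ^ (m + 1)) - K * r0 ^ γ ≤ ∑ x with P x ∧ (x, b) ∈ F.S, F.μ x * F.deg x ^ m := by
  have hs : 0 < ∑ l, |w l| := by
    by_contra h
    have h' : (∑ l, |w l|) * A ≤ 0 := mul_nonpos_of_nonpos_of_nonneg (not_lt.1 h) hA.le
    linarith
  have hr0' : 0 < r0 := hρ.trans_le hr0
  set Ψ : T → ℝ := fun b => ∑ x with P x ∧ (x, b) ∈ F.S, F.μ x * F.deg x ^ m with hΨ
  have hterm0 : ∀ x, 0 ≤ F.μ x * F.deg x ^ m := fun x => mul_nonneg (hF.μ0 x) (pow_nonneg (PjCfg.deg_nonneg hF x) m)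
  have hΨ0 : ∀ b, 0 ≤ Ψ b := fun b => Finset.sum_nonneg fun x _ => hterm0 x
  have hΨ1 : ∀ b, Ψ b ≤ 1 := by
    intro b
    refine (Finset.sum_le_sum_of_subset_of_nonneg (Finset.filter_subset _ _) fun x _ _ => hterm0 x).trans ?_
    refine le_trans (Finset.sum_le_sum fun x _ => ?_) hF.μ1
    exact mul_le_of_le_one_right (hF.μ0 x) (pow_le_one₀ (PjCfg.deg_nonneg hF x) (PjCfg.deg_le_one hF x))
  have hΦ : ∑ x with P x, F.μ x * F.deg x ^ (m + 1) = ∑ b, F.ν b * Ψ b := by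
    have e1 : ∑ x with P x, F.μ x * F.deg x ^ (m + 1)
        = ∑ x, ∑ b, if P x ∧ (x, b) ∈ F.S then F.ν b * (F.μ x * F.deg x ^ m) else 0 := by
      rw [Finset.sum_filter]
      refine Finset.sum_congr rfl fun x _ => ?_
      by_cases hx : P x
      · simp only [hx, if_true, true_and]
        rw [← Finset.sum_filter, ← Finset.sum_mul, pow_succ]
        show _ = F.deg x * _
        ring
      · simp [hx]
    have e2 : ∑ b, F.ν b * Ψ b = ∑ b, ∑ x, if P x ∧ (x, b) ∈ F.S then F.ν b * (F.μ x * F.deg x ^ m) else 0 := by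
      refine Finset.sum_congr rfl fun b _ => ?_
      rw [hΨ]
      simp only []
      rw [Finset.mul_sum, Finset.sum_filter]
    rw [e1, e2, Finset.sum_comm]
  have hsplit := Finset.sum_filter_add_sum_filter_not (Finset.univ : Finset T)
    (fun b => |w ⬝ᵥ F.dir b| ≤ r0 * ∑ l, |w l|) (fun b => F.ν b * Ψ b)
  have hB : ∑ b with |w ⬝ᵥ F.dir b| ≤ r0 * ∑ l, |w l|, F.ν b * Ψ b ≤ K * r0 ^ γ := by
    refine le_trans (Finset.sum_le_sum fun b _ => ?_) (hF.strip_hom hK hγ w hs r0 hr0)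
    exact mul_le_of_le_one_right (hF.ν0 b) (hΨ1 b)
  have hE : (Finset.univ.filter fun b : T => ¬ |w ⬝ᵥ F.dir b| ≤ r0 * ∑ l, |w l|).Nonempty := by
    by_contra h
    rw [Finset.not_nonempty_iff_eq_empty] at h
    rw [h, Finset.sum_empty, add_zero] at hsplit
    linarith
  obtain ⟨b, hbE, hbmax⟩ := Finset.exists_max_image _ Ψ hE
  refine ⟨b, ?_, ?_⟩
  · have hb : r0 * ∑ l, |w l| < |w ⬝ᵥ F.dir b| := by
      simpa using hbE
    refine le_trans ?_ hb.le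
    rw [div_le_iff₀ hA, mul_assoc]
    exact le_mul_of_one_le_right hr0'.le hw
  · have h1 : ∑ b with ¬ |w ⬝ᵥ F.dir b| ≤ r0 * ∑ l, |w l|, F.ν b * Ψ b ≤ Ψ b := by
      calc ∑ b' with ¬ |w ⬝ᵥ F.dir b'| ≤ r0 * ∑ l, |w l|, F.ν b' * Ψ b'
          ≤ ∑ b' with ¬ |w ⬝ᵥ F.dir b'| ≤ r0 * ∑ l, |w l|, F.ν b' * Ψ b :=
            Finset.sum_le_sum fun b' hb' => mul_le_mul_of_nonneg_left (hbmax b' hb') (hF.ν0 b')
        _ = (∑ b' with ¬ |w ⬝ᵥ F.dir b'| ≤ r0 * ∑ l, |w l|, F.ν b') * Ψ b := by rw [Finset.sum_mul]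
        _ ≤ 1 * Ψ b := by
            refine mul_le_mul_of_nonneg_right ?_ (hΨ0 b)
            exact (Finset.sum_le_sum_of_subset_of_nonneg (Finset.filter_subset _ _) fun b _ _ => hF.ν0 b).trans hF.ν1
        _ = Ψ b := one_mul _
    show _ ≤ Ψ b
    linarith

theorem pj_mass_eq {d : ℕ} {X T : Type} [Fintype X] [Fintype T] (F : PjCfg d X T) :
    ∑ x, F.μ x * F.deg x = ∑ p ∈ F.S, F.μ p.1 * F.ν p.2 := by
  have e1 : ∑ p ∈ F.S, F.μ p.1 * F.ν p.2 = ∑ p : X × T, if p ∈ F.S then F.μ p.1 * F.ν p.2 else 0 := by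
    rw [← Finset.sum_filter]
    refine Finset.sum_congr ?_ fun _ _ => rfl
    ext p
    simp
  rw [e1, Fintype.sum_prod_type]
  refine Finset.sum_congr rfl fun x _ => ?_
  unfold PjCfg.deg
  rw [Finset.mul_sum, Finset.sum_filter]

/-- LEAF `L-PJ-S4` **the induction.**
PLAN.  `j = 0`: `T` is nonempty (`hF.mass`, `K⁻¹ > 0`), `β` constant, `pj_dual_std` + `PjDual.mono` (`pj_L_zero`); `pj_jensen` with `z = deg`, `m = n+2`, and `∑_x μ x deg x = ∑_{p ∈ S} μ ν ≥ K⁻¹`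
(`Finset.sum_product'`-style exchange: `∑_{p ∈ S} f p = ∑_x ∑_{b : (x,b) ∈ S} f (x,b)`, e.g. `Finset.sum_finset_product'`), `pow_le_pow_left₀`.
`j → j+1` (`j < n+2`, `p = ⟨j, _⟩`): `pj_select_step` with `P x = ∀ i, i.val < j → (x, β i) ∈ S`, `m = n+2-j`, `w = c p` (`D.one_le (c p) p`), `hpos` from `hsmall`;  new `β' = Function.update β p b`,
`c' = pjPiv c p (dir b)`, `D.piv` with `τ = r0/A` + `pj_L_succ` + `PjDual.mono`; the new family of vectors is `Function.update u p (dir b)` (funext, cases `i = p`, `i.val < j`, `i.val > j`). -/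
theorem pj_select_ind (n : ℕ) {X T : Type} [Fintype X] [Fintype T] (F : PjCfg (n + 2) X T) {ρ K A d0 γ r0 : ℝ} (hF : F.Ok ρ K A d0 γ)
    (hK : 1 ≤ K) (hγ : 0 ≤ γ) (hA : 1 ≤ A) (hρ : 0 < ρ) (hr0 : ρ ≤ r0) (hr1 : r0 ≤ 1)
    (hsmall : ((n + 2 : ℕ) : ℝ) * (K * r0 ^ γ) < K⁻¹ ^ (n + 3)) (j : ℕ) (hj : j ≤ n + 2) :
    ∃ (β : Fin (n + 2) → T) (c : Fin (n + 2) → Fin (n + 2) → ℝ),
      PjDual (n + 2) A (pjL A r0 j) (fun i => if i.val < j then F.dir (β i) else Pi.single i 1) c ∧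
      K⁻¹ ^ (n + 3) - (j : ℝ) * (K * r0 ^ γ) ≤
        ∑ x with ∀ i : Fin (n + 2), i.val < j → (x, β i) ∈ F.S, F.μ x * F.deg x ^ (n + 3 - j) := by
  have hK0 : 0 < K := lt_of_lt_of_le one_pos hK
  have hA0 : 0 < A := lt_of_lt_of_le one_pos hA
  have hr0' : 0 < r0 := hρ.trans_le hr0
  have hq0 : 0 ≤ K * r0 ^ γ := mul_nonneg hK0.le (Real.rpow_nonneg hr0'.le γ)
  induction j with
  | zero =>
    have hKi : 0 < K⁻¹ := inv_pos.2 hK0
    have hSne : F.S.Nonempty := by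
      by_contra h
      rw [Finset.not_nonempty_iff_eq_empty] at h
      have := hF.mass
      rw [h, Finset.sum_empty] at this
      linarith
    obtain ⟨p0, -⟩ := hSne
    refine ⟨fun _ => p0.2, fun i => Pi.single i 1, ?_, ?_⟩
    · have e : (fun i : Fin (n + 2) => if i.val < 0 then F.dir p0.2 else (Pi.single i 1 : Fin (n + 2) → ℝ))
          = fun i => Pi.single i 1 := by
        funext i
        simp
      rw [e, pj_L_zero]
      exact (pj_dual_std (n + 2)).mono hA le_rfl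
    · have e : (Finset.univ.filter fun x : X => ∀ i : Fin (n + 2), i.val < 0 → (x, p0.2) ∈ F.S) = Finset.univ := by
        ext x
        simp
      rw [e]
      have h1 := pj_jensen F.μ F.deg hF.μ0 hF.μ1 (PjCfg.deg_nonneg hF) (n + 2)
      have h2 : K⁻¹ ≤ ∑ x, F.μ x * F.deg x := by
        rw [pj_mass_eq]
        exact hF.mass
      have h3 : K⁻¹ ^ (n + 3) ≤ (∑ x, F.μ x * F.deg x) ^ (n + 3) := pow_le_pow_left₀ hKi.le h2 _
      simp only [Nat.cast_zero, zero_mul, sub_zero, Nat.sub_zero]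
      exact h3.trans h1
  | succ j ih =>
    obtain ⟨β, c, D, h⟩ := ih (by omega)
    have hjlt : j < n + 2 := by omega
    set p : Fin (n + 2) := ⟨j, hjlt⟩ with hp
    have hexp : n + 3 - j = (n + 2 - j) + 1 := by omega
    rw [hexp] at h
    have hjc : ((j : ℝ) + 1) * (K * r0 ^ γ) ≤ ((n + 2 : ℕ) : ℝ) * (K * r0 ^ γ) := by
      refine mul_le_mul_of_nonneg_right ?_ hq0
      have : ((j + 1 : ℕ) : ℝ) ≤ ((n + 2 : ℕ) : ℝ) := Nat.cast_le.2 hj
      push_cast at this ⊢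
      linarith
    have hpos : K * r0 ^ γ < ∑ x with ∀ i : Fin (n + 2), i.val < j → (x, β i) ∈ F.S, F.μ x * F.deg x ^ (n + 2 - j + 1) := by
      linarith
    obtain ⟨b, hb1, hb2⟩ := pj_select_step F hF hK hγ hA0 hρ hr0 (fun x => ∀ i : Fin (n + 2), i.val < j → (x, β i) ∈ F.S)
      (n + 2 - j) (c p) (D.one_le (c p) p (by simp [D.bi])) (by convert hpos)
    have hb2' : (∑ x with ∀ i : Fin (n + 2), i.val < j → (x, β i) ∈ F.S, F.μ x * F.deg x ^ (n + 2 - j + 1)) - K * r0 ^ γ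
        ≤ ∑ x with (∀ i : Fin (n + 2), i.val < j → (x, β i) ∈ F.S) ∧ (x, b) ∈ F.S, F.μ x * F.deg x ^ (n + 2 - j) := by
      convert hb2
    refine ⟨Function.update β p b, pjPiv c p (F.dir b), ?_, ?_⟩
    · have D' := (D.piv hA0.le p (F.dir b) (hF.hdir b) (div_pos hr0' hA0) hb1).mono le_rfl (pj_L_succ hA hr0' hr1 j)
      have e : (fun i : Fin (n + 2) => if i.val < j + 1 then F.dir (Function.update β p b i) else (Pi.single i 1 : Fin (n + 2) → ℝ))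
          = Function.update (fun i : Fin (n + 2) => if i.val < j then F.dir (β i) else (Pi.single i 1 : Fin (n + 2) → ℝ)) p (F.dir b) := by
        funext i
        by_cases hi : i = p
        · subst hi
          simp [hp]
        · rw [Function.update_of_ne hi, Function.update_of_ne hi]
          have hij : i.val ≠ j := fun h' => hi (Fin.ext h')
          have : i.val < j + 1 ↔ i.val < j := by omega
          simp only [this]
      rw [e]
      exact D'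
    · have e : (Finset.univ.filter fun x : X => ∀ i : Fin (n + 2), i.val < j + 1 → (x, Function.update β p b i) ∈ F.S)
          = Finset.univ.filter fun x : X => (∀ i : Fin (n + 2), i.val < j → (x, β i) ∈ F.S) ∧ (x, b) ∈ F.S := by
        ext x
        simp only [Finset.mem_filter, Finset.mem_univ, true_and]
        constructor
        · intro H
          refine ⟨fun i hi => ?_, ?_⟩
          · have hne : i ≠ p := fun h' => by
              rw [h'] at hi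
              exact lt_irrefl _ hi
            have := H i (by omega)
            rwa [Function.update_of_ne hne] at this
          · have := H p (Nat.lt_succ_self j)
            rwa [Function.update_self] at this
        · rintro ⟨H1, H2⟩ i hi
          by_cases hip : i = p
          · subst hip
            rwa [Function.update_self]
          · rw [Function.update_of_ne hip]
            have hij : i.val ≠ j := fun h' => hip (Fin.ext h')
            exact H1 i (by omega)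
      have hexp2 : n + 3 - (j + 1) = n + 2 - j := by omega
      rw [e, hexp2]
      push_cast
      linarith

/-- **SELECTION** (exit of this file) -/
theorem pj_select (n : ℕ) {X T : Type} [Fintype X] [Fintype T] (F : PjCfg (n + 2) X T) {ρ K A d0 γ r0 : ℝ} (hF : F.Ok ρ K A d0 γ)
    (hK : 1 ≤ K) (hγ : 0 ≤ γ) (hA : 1 ≤ A) (hρ : 0 < ρ) (hr0 : ρ ≤ r0) (hr1 : r0 ≤ 1)
    (hsmall : ((n + 2 : ℕ) : ℝ) * (K * r0 ^ γ) < K⁻¹ ^ (n + 3)) :
    ∃ (β : Fin (n + 2) → T) (c : Fin (n + 2) → Fin (n + 2) → ℝ),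
      PjDual (n + 2) A (pjL A r0 (n + 2)) (fun i => F.dir (β i)) c ∧
      K⁻¹ ^ (n + 3) - ((n + 2 : ℕ) : ℝ) * (K * r0 ^ γ) ≤ ∑ x with ∀ i, (x, β i) ∈ F.S, F.μ x * F.deg x := by
  obtain ⟨β, c, D, h⟩ := pj_select_ind n F hF hK hγ hA hρ hr0 hr1 hsmall (n + 2) le_rfl
  refine ⟨β, c, ?_, ?_⟩
  · have e : (fun i : Fin (n + 2) => if i.val < n + 2 then F.dir (β i) else Pi.single i 1) = fun i => F.dir (β i) := by
      funext i; rw [if_pos i.isLt]
    rwa [e] at D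
  · refine h.trans (le_of_eq ?_)
    have e : n + 3 - (n + 2) = 1 := by omega
    rw [e]
    refine Finset.sum_congr ?_ fun x _ => by rw [pow_one]
    ext x
    simp only [Finset.mem_filter, Finset.mem_univ, true_and]
    exact ⟨fun h i => h i i.isLt, fun h i _ => h i⟩

end Claimed.Agent.R257
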